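import Vale.Agent.Lib.P084G.A.DBasic

/-! Quantitative Birkhoff lemma (INF.md section 5). -/

namespace Vale.Agent.P084G

variable {Y : Type*} [NormedAddCommGroup Y] [NormedSpace ℝ Y]

/-- Case B of INF.md section 5: both `‖q ± ξ/2‖ < 1 + 1/16`. -/
theorem blq_caseB {q ξ : Y} (hq : ‖q‖ = 1) (hξ : ‖ξ‖ = 1)
    (hB : ‖q - (1 / 2 : ℝ) • ξ‖ < 1 + 1 / 16) :
    ∃ y0 : Y, ‖y0‖ = 1 ∧ ‖q + y0‖ ≤ 2 - 2 * (1 / 36) ∧
      ∀ y : Y, ‖y - y0‖ ≤ 1 / 600 → ∀ ψ : Y →L[ℝ] ℝ, Nrm ψ (q - y) → 1 / 16 ≤ |ψ ξ| := by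
  set u : Y := q + (4 : ℝ) • ξ with hu
  have hu3 : 3 ≤ ‖u‖ := by
    have h1 : ‖(4 : ℝ) • ξ‖ = 4 := by rw [norm_smul, hξ]; norm_num
    have h2 : ‖(4 : ℝ) • ξ‖ ≤ ‖u‖ + ‖q‖ := by
      have h3 : (4 : ℝ) • ξ = u - q := by rw [hu]; abel
      rw [h3]
      exact norm_sub_le _ _
    rw [h1, hq] at h2
    linarith
  -- the value at `1/9`
  have h9 : ‖q - (1 / 9 : ℝ) • u‖ ≤ 17 / 18 := by
    have h1 : q - (1 / 9 : ℝ) • u = (8 / 9 : ℝ) • (q - (1 / 2 : ℝ) • ξ) := by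
      rw [hu]
      module
    rw [h1, norm_smul]
    have h2 : ‖(8 / 9 : ℝ)‖ = 8 / 9 := by norm_num
    rw [h2]
    linarith
  have h23 : 1 ≤ ‖q - (2 / 3 : ℝ) • u‖ := by
    have h1 : ‖(2 / 3 : ℝ) • u‖ ≤ ‖q - (2 / 3 : ℝ) • u‖ + ‖q‖ := by
      have h3 : (2 / 3 : ℝ) • u = -(q - (2 / 3 : ℝ) • u) + q := by abel
      calc ‖(2 / 3 : ℝ) • u‖ = ‖-(q - (2 / 3 : ℝ) • u) + q‖ := by rw [← h3]
        _ ≤ ‖-(q - (2 / 3 : ℝ) • u)‖ + ‖q‖ := norm_add_le _ _
        _ = _ := by rw [norm_neg]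
    rw [norm_smul, hq] at h1
    have h2 : ‖(2 / 3 : ℝ)‖ = 2 / 3 := by norm_num
    rw [h2] at h1
    linarith
  -- intermediate value theorem
  obtain ⟨lam, ⟨hl1, hl2⟩, hlam⟩ : ∃ lam ∈ Set.Icc (1 / 9 : ℝ) (2 / 3), ‖q - lam • u‖ = 1 := by
    have hcont : ContinuousOn (fun s : ℝ => ‖q - s • u‖) (Set.Icc (1 / 9 : ℝ) (2 / 3)) := by
      apply Continuous.continuousOn
      fun_prop
    have hI := intermediate_value_Icc (by norm_num : (1 / 9 : ℝ) ≤ 2 / 3) hcont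
    have hmem : (1 : ℝ) ∈ Set.Icc (‖q - (1 / 9 : ℝ) • u‖) (‖q - (2 / 3 : ℝ) • u‖) :=
      ⟨by linarith, h23⟩
    obtain ⟨s, hs, hs2⟩ := hI hmem
    exact ⟨s, hs, hs2⟩
  have hlpos : 0 < lam := by linarith
  refine ⟨q - lam • u, hlam, ?_, ?_⟩
  · -- the gap
    have hhalf : ‖q - (lam / 2) • u‖ ≤ 1 - 1 / 36 := by
      rcases le_or_gt (lam / 2) (1 / 9) with hc | hc
      · have h1 : q - (lam / 2) • u
            = (1 - 9 * lam / 2) • q + (9 * lam / 2) • (q - (1 / 9 : ℝ) • u) := by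
          module
        have h2 : 0 ≤ 1 - 9 * lam / 2 := by linarith
        have h3 : 0 ≤ 9 * lam / 2 := by linarith
        calc ‖q - (lam / 2) • u‖
            = ‖(1 - 9 * lam / 2) • q + (9 * lam / 2) • (q - (1 / 9 : ℝ) • u)‖ := by rw [← h1]
          _ ≤ ‖(1 - 9 * lam / 2) • q‖ + ‖(9 * lam / 2) • (q - (1 / 9 : ℝ) • u)‖ :=
              norm_add_le _ _
          _ = (1 - 9 * lam / 2) * 1 + (9 * lam / 2) * ‖q - (1 / 9 : ℝ) • u‖ := by
              rw [norm_smul, norm_smul, hq, Real.norm_of_nonneg h2, Real.norm_of_nonneg h3]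
          _ ≤ (1 - 9 * lam / 2) * 1 + (9 * lam / 2) * (17 / 18) := by gcongr
          _ ≤ _ := by linarith
      · have hd : 0 < lam - 1 / 9 := by linarith
        set a : ℝ := (lam / 2) / (lam - 1 / 9) with ha
        have ha1 : a * (lam - 1 / 9) = lam / 2 := by
          rw [ha]; exact div_mul_cancel₀ _ hd.ne'
        have ha2 : 1 / 2 ≤ a := by
          rw [ha, le_div_iff₀ hd]; linarith
        have ha3 : a ≤ 1 := by
          rw [ha, div_le_one hd]; linarith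
        have h1 : q - (lam / 2) • u
            = a • (q - (1 / 9 : ℝ) • u) + (1 - a) • (q - lam • u) := by
          have h6 : lam / 2 = a * (1 / 9) + (1 - a) * lam := by linarith
          rw [h6]
          module
        have h2 : 0 ≤ 1 - a := by linarith
        have h3 : 0 ≤ a := by linarith
        calc ‖q - (lam / 2) • u‖
            = ‖a • (q - (1 / 9 : ℝ) • u) + (1 - a) • (q - lam • u)‖ := by rw [← h1]
          _ ≤ ‖a • (q - (1 / 9 : ℝ) • u)‖ + ‖(1 - a) • (q - lam • u)‖ := norm_add_le _ _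
          _ = a * ‖q - (1 / 9 : ℝ) • u‖ + (1 - a) * 1 := by
              rw [norm_smul, norm_smul, hlam, Real.norm_of_nonneg h2, Real.norm_of_nonneg h3]
          _ ≤ a * (17 / 18) + (1 - a) * 1 := by gcongr
          _ ≤ _ := by linarith
    have h1 : q + (q - lam • u) = (2 : ℝ) • (q - (lam / 2) • u) := by module
    rw [h1, norm_smul]
    have h2 : ‖(2 : ℝ)‖ = 2 := by norm_num
    rw [h2]
    linarith
  · intro y hy ψ hψ
    obtain ⟨hψ1, hψ2⟩ := hψ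
    have habs : ∀ v : Y, |ψ v| ≤ ‖v‖ := by
      intro v
      have h1 := ψ.le_opNorm v
      rw [Real.norm_eq_abs] at h1
      calc |ψ v| ≤ ‖ψ‖ * ‖v‖ := h1
        _ ≤ 1 * ‖v‖ := mul_le_mul_of_nonneg_right hψ1 (norm_nonneg _)
        _ = ‖v‖ := one_mul _
    -- `e = (q - y) - lam • u`
    have he : ‖(q - y) - lam • u‖ ≤ 1 / 600 := by
      have h1 : (q - y) - lam • u = -(y - (q - lam • u)) := by abel
      rw [h1, norm_neg]
      exact hy
    have h1 : lam * ‖u‖ ≤ ‖q - y‖ + 1 / 600 := by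
      have h2 : ‖lam • u‖ ≤ ‖q - y‖ + ‖(q - y) - lam • u‖ := by
        have h3 : lam • u = (q - y) - ((q - y) - lam • u) := by abel
        calc ‖lam • u‖ = ‖(q - y) - ((q - y) - lam • u)‖ := by rw [← h3]
          _ ≤ _ := norm_sub_le _ _
      rw [norm_smul, Real.norm_of_nonneg hlpos.le] at h2
      linarith
    have h2 : ‖q - y‖ - 1 / 600 ≤ lam * ψ u := by
      have h3 : ψ (q - y) = lam * ψ u + ψ ((q - y) - lam • u) := by
        rw [map_sub ψ (q - y) (lam • u), map_smul, smul_eq_mul]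
        ring
      have h4 := (abs_le.mp (habs ((q - y) - lam • u))).2
      rw [hψ2] at h3
      linarith
    have h3 : lam * ‖u‖ - 1 / 300 ≤ lam * ψ u := by linarith
    have h4 : lam * 3 ≤ lam * ‖u‖ := mul_le_mul_of_nonneg_left hu3 hlpos.le
    have h5 : 2 ≤ ψ u := by
      by_contra hcon
      push Not at hcon
      have h6 : lam * ψ u < lam * 2 := mul_lt_mul_of_pos_left hcon hlpos
      linarith
    have h6 : ψ u = ψ q + 4 * ψ ξ := by
      rw [hu, map_add, map_smul, smul_eq_mul]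
    have h7 := (abs_le.mp (habs q)).2
    rw [hq] at h7
    have h8 : 1 / 16 ≤ ψ ξ := by linarith
    exact h8.trans (le_abs_self _)

end Vale.Agent.P084G
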