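import Vale.Agent.Lib.P084G.A.BLqA
import Vale.Agent.Lib.P084G.A.BLqB

/-! Quantitative Birkhoff lemma (INF.md section 5). -/

namespace Vale.Agent.P084G

variable {Y : Type*} [NormedAddCommGroup Y] [NormedSpace ℝ Y]

/-- the unit vector case -/
theorem BLq_unit {q u : Y} (hq : ‖q‖ = 1) (hu : ‖u‖ = 1) :
    ∃ y0 : Y, ‖y0‖ = 1 ∧ ‖q + y0‖ ≤ 2 - 2 * (1 / 36) ∧
      ∀ y : Y, ‖y - y0‖ ≤ 1 / 600 → ∀ ψ : Y →L[ℝ] ℝ, Nrm ψ (q - y) → 1 / 16 ≤ |ψ u| := by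
  rcases le_or_gt (1 + 1 / 16 : ℝ) ‖q + (1 / 2 : ℝ) • u‖ with hA | hB
  · exact blq_caseA hq hu hA
  · have hu' : ‖-u‖ = 1 := by rw [norm_neg, hu]
    have hB' : ‖q - (1 / 2 : ℝ) • (-u)‖ < 1 + 1 / 16 := by
      rw [smul_neg, sub_neg_eq_add]
      exact hB
    obtain ⟨y0, h1, h2, h3⟩ := blq_caseB hq hu' hB'
    refine ⟨y0, h1, h2, fun y hy ψ hψ => ?_⟩
    have h4 := h3 y hy ψ hψ
    rw [map_neg, abs_neg] at h4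
    exact h4

/-- **BLq.** -/
theorem blq {q : Y} (hq : ‖q‖ = 1) (ξ : Y) :
    ∃ y0 : Y, ‖y0‖ = 1 ∧ ‖q + y0‖ ≤ 2 - 2 * (1 / 36) ∧
      ∀ y : Y, ‖y - y0‖ ≤ 1 / 600 → ∀ ψ : Y →L[ℝ] ℝ, Nrm ψ (q - y) → ‖ξ‖ / 16 ≤ |ψ ξ| := by
  rcases eq_or_ne ξ 0 with h0 | h0
  · subst h0
    refine ⟨-q, by rw [norm_neg, hq], ?_, fun y _ ψ _ => ?_⟩
    · rw [add_neg_cancel, norm_zero]
      norm_num
    · rw [map_zero, norm_zero, abs_zero, zero_div]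
  · have hn : 0 < ‖ξ‖ := norm_pos_iff.2 h0
    have hu : ‖‖ξ‖⁻¹ • ξ‖ = 1 := by
      rw [norm_smul, norm_inv, norm_norm, inv_mul_cancel₀ hn.ne']
    obtain ⟨y0, h1, h2, h3⟩ := BLq_unit hq hu
    refine ⟨y0, h1, h2, fun y hy ψ hψ => ?_⟩
    have h4 := h3 y hy ψ hψ
    rw [map_smul, smul_eq_mul, abs_mul, abs_inv, abs_norm] at h4
    calc ‖ξ‖ / 16 = ‖ξ‖ * (1 / 16) := by ring
      _ ≤ ‖ξ‖ * (‖ξ‖⁻¹ * |ψ ξ|) := mul_le_mul_of_nonneg_left h4 hn.le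
      _ = |ψ ξ| := by rw [← mul_assoc, mul_inv_cancel₀ hn.ne', one_mul]

end Vale.Agent.P084G
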