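import Vale.Agent.Lib.P084G.A.DBasic

/-! Quantitative Birkhoff lemma (INF.md section 5). -/

namespace Vale.Agent.P084G

variable {Y : Type*} [NormedAddCommGroup Y] [NormedSpace ℝ Y]

/-- Case A of INF.md section 5: `‖q + ξ/2‖ ≥ 1 + 1/16`. -/
theorem blq_caseA {q ξ : Y} (hq : ‖q‖ = 1) (hξ : ‖ξ‖ = 1) (hA : 1 + 1 / 16 ≤ ‖q + (1 / 2 : ℝ) • ξ‖) :
    ∃ y0 : Y, ‖y0‖ = 1 ∧ ‖q + y0‖ ≤ 2 - 2 * (1 / 36) ∧
      ∀ y : Y, ‖y - y0‖ ≤ 1 / 600 → ∀ ψ : Y →L[ℝ] ℝ, Nrm ψ (q - y) → 1 / 16 ≤ |ψ ξ| := by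
  obtain ⟨u, hu⟩ : ∃ u : Y, u = q + (1 / 2 : ℝ) • ξ := ⟨_, rfl⟩
  rw [← hu] at hA
  have hqu : ‖q - u‖ = 1 / 2 := by
    have : q - u = -((1 / 2 : ℝ) • ξ) := by rw [hu]; abel
    rw [this, norm_neg, norm_smul, hξ, Real.norm_of_nonneg (by norm_num)]
    norm_num
  have hu2 : ‖u‖ ≤ 3 / 2 := by
    have h1 : ‖u‖ ≤ ‖q‖ + ‖(1 / 2 : ℝ) • ξ‖ := by rw [hu]; exact norm_add_le _ _
    rw [norm_smul, hξ, hq, Real.norm_of_nonneg (by norm_num)] at h1
    linarith
  have hcont : Continuous (fun s : ℝ => ‖q - s • u‖) := by fun_prop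
  -- existence of lam
  obtain ⟨lam, ⟨hl1, hl4⟩, hlam⟩ : ∃ lam ∈ Set.Icc (1 : ℝ) 4, ‖q - lam • u‖ = 1 := by
    have h1 : ‖q - (1 : ℝ) • u‖ ≤ 1 := by rw [one_smul, hqu]; norm_num
    have h4 : 1 ≤ ‖q - (4 : ℝ) • u‖ := by
      have h5 : ‖(4 : ℝ) • u‖ ≤ ‖q - (4 : ℝ) • u‖ + ‖q‖ := by
        have : (4 : ℝ) • u = q - (q - (4 : ℝ) • u) := by abel
        calc ‖(4 : ℝ) • u‖ = ‖q - (q - (4 : ℝ) • u)‖ := by rw [← this]
          _ ≤ ‖q‖ + ‖q - (4 : ℝ) • u‖ := norm_sub_le _ _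
          _ = _ := add_comm _ _
      rw [norm_smul, hq, Real.norm_of_nonneg (by norm_num)] at h5
      linarith
    have := intermediate_value_Icc (by norm_num : (1 : ℝ) ≤ 4) hcont.continuousOn
    exact this ⟨h1, h4⟩
  have hl43 : 4 / 3 ≤ lam := by
    have h1 : ‖q - lam • u‖ ≤ ‖q - u‖ + ‖(lam - 1) • u‖ := by
      have : q - lam • u = (q - u) - (lam - 1) • u := by rw [sub_smul, one_smul]; abel
      rw [this]; exact norm_sub_le _ _
    rw [hlam, hqu, norm_smul, Real.norm_of_nonneg (by linarith)] at h1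
    have h2 : (lam - 1) * ‖u‖ ≤ (lam - 1) * (3 / 2) := mul_le_mul_of_nonneg_left hu2 (by linarith)
    linarith
  refine ⟨q - lam • u, hlam, ?_, ?_⟩
  · have e1 : q + (q - lam • u) = (2 : ℝ) • (q - (lam / 2) • u) := by
      rw [smul_sub, smul_smul, two_smul]
      rw [show 2 * (lam / 2) = lam by ring]
      abel
    rw [e1, norm_smul, Real.norm_of_nonneg (by norm_num)]
    have key : ‖q - (lam / 2) • u‖ ≤ 35 / 36 := by
      rcases le_total lam 2 with h | h
      · have e2 : q - (lam / 2) • u = (1 - lam / 2) • q + (lam / 2) • (q - u) := by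
          rw [sub_smul, one_smul, smul_sub]; abel
        have h1 : ‖q - (lam / 2) • u‖ ≤ ‖(1 - lam / 2) • q‖ + ‖(lam / 2) • (q - u)‖ := by
          rw [e2]; exact norm_add_le _ _
        rw [norm_smul, norm_smul, hq, hqu, Real.norm_of_nonneg (by linarith),
          Real.norm_of_nonneg (by linarith)] at h1
        linarith
      · have e2 : (lam - 1) • (q - (lam / 2) • u) =
            (lam / 2) • (q - u) + (lam / 2 - 1) • (q - lam • u) := by
          module
        have h1 : ‖(lam - 1) • (q - (lam / 2) • u)‖ ≤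
            ‖(lam / 2) • (q - u)‖ + ‖(lam / 2 - 1) • (q - lam • u)‖ := by
          rw [e2]; exact norm_add_le _ _
        rw [norm_smul, norm_smul, norm_smul, hlam, hqu, Real.norm_of_nonneg (by linarith),
          Real.norm_of_nonneg (by linarith), Real.norm_of_nonneg (by linarith)] at h1
        by_contra hc
        push Not at hc
        have : (lam - 1) * (35 / 36) < (lam - 1) * ‖q - (lam / 2) • u‖ :=
          mul_lt_mul_of_pos_left hc (by linarith)
        linarith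
    linarith
  · intro y hy ψ hψ
    have hle : ∀ z : Y, |ψ z| ≤ ‖z‖ := fun z => hψ.abs_le z
    have h1 : ψ (q - y) = ‖q - y‖ := hψ.2
    have h2 : q - y = lam • u - (y - (q - lam • u)) := by abel
    have h3 : ‖lam • u‖ ≤ ‖q - y‖ + ‖y - (q - lam • u)‖ := by
      have : lam • u = (q - y) + (y - (q - lam • u)) := by abel
      calc ‖lam • u‖ = ‖(q - y) + (y - (q - lam • u))‖ := by rw [← this]
        _ ≤ _ := norm_add_le _ _
    rw [norm_smul, Real.norm_of_nonneg (by linarith)] at h3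
    have h4 : ψ (q - y) = lam * ψ u - ψ (y - (q - lam • u)) := by
      conv_lhs => rw [h2]
      rw [map_sub, map_smul, smul_eq_mul]
    have h5 := (abs_le.mp (hle (y - (q - lam • u)))).1
    have h6 : ψ u = ψ q + (1 / 2) * ψ ξ := by
      rw [hu, map_add, map_smul, smul_eq_mul]
    have h7 := (abs_le.mp (hle q)).2
    rw [hq] at h7
    have h8 : lam * ‖u‖ - 2 * (1 / 600) ≤ lam * ψ u := by linarith
    have h9 : ‖u‖ - 1 / 400 ≤ ψ u := by
      by_contra hc
      push Not at hc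
      have : lam * ψ u < lam * (‖u‖ - 1 / 400) := mul_lt_mul_of_pos_left hc (by linarith)
      linarith
    have h10 : 1 / 16 ≤ ψ ξ := by linarith
    exact h10.trans (le_abs_self _)

end Vale.Agent.P084G
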