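import Vale.Agent.Lib.P084G.A.Nd

/-! The normalised curve `cur`, smooth points. -/

open Filter Topology

namespace Vale.Agent.P084G

variable {X : Type*} [NormedAddCommGroup X] [NormedSpace ℝ X]

theorem cur_aux_norm {p : X} (v : X) (hp : ‖p‖ = 1) :
    Tendsto (fun t : ℝ => ‖p + t • v‖) (𝓝[>] 0) (𝓝 1) := by
  have h1 : Continuous (fun t : ℝ => ‖p + t • v‖) := by fun_prop
  have h2 : Tendsto (fun t : ℝ => ‖p + t • v‖) (𝓝 0) (𝓝 ‖p + (0 : ℝ) • v‖) := h1.tendsto 0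
  rw [zero_smul, add_zero, hp] at h2
  exact h2.mono_left nhdsWithin_le_nhds

/-- for small `t` the curve lies on the sphere -/
theorem cur_norm {p v : X} (hp : ‖p‖ = 1) : ∀ᶠ t : ℝ in 𝓝[>] 0, ‖cur p v t‖ = 1 := by
  have h1 : ∀ᶠ t : ℝ in 𝓝[>] 0, (1 / 2 : ℝ) < ‖p + t • v‖ :=
    (cur_aux_norm v hp).eventually (lt_mem_nhds (by norm_num))
  filter_upwards [h1] with t ht
  unfold cur
  have h0 : ‖p + t • v‖ ≠ 0 := by
    intro h
    rw [h] at ht
    norm_num at ht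
  rw [norm_smul, norm_inv, norm_norm, inv_mul_cancel₀ h0]

/-- if `nd p v = 0` then `cur p v t = p + t v + o(t)` -/
theorem cur_tendsto {p v : X} (hp : ‖p‖ = 1) (hv : nd p v = 0) :
    Tendsto (fun t : ℝ => t⁻¹ • (cur p v t - p)) (𝓝[>] 0) (𝓝 v) := by
  have hn := cur_aux_norm v hp
  have hq : Tendsto (fun t : ℝ => p + t • v) (𝓝[>] 0) (𝓝 p) := by
    have h1 : Continuous (fun t : ℝ => p + t • v) := by fun_prop
    have h2 : Tendsto (fun t : ℝ => p + t • v) (𝓝 0) (𝓝 (p + (0 : ℝ) • v)) := h1.tendsto 0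
    rw [zero_smul, add_zero] at h2
    exact h2.mono_left nhdsWithin_le_nhds
  have hd := nd_tendsto p v
  rw [hv] at hd
  have hinv : Tendsto (fun t : ℝ => ‖p + t • v‖⁻¹) (𝓝[>] 0) (𝓝 1) := by
    have := hn.inv₀ one_ne_zero
    rwa [inv_one] at this
  have h3 : Tendsto (fun t : ℝ => (-(((‖p + t • v‖ - ‖p‖) / t) * ‖p + t • v‖⁻¹)) •
      (p + t • v) + v) (𝓝[>] 0) (𝓝 ((-((0 : ℝ) * 1)) • p + v)) :=
    (((hd.mul hinv).neg).smul hq).add tendsto_const_nhds
  have e : ((-((0 : ℝ) * 1)) • p + v) = v := by simp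
  rw [e] at h3
  refine h3.congr' ?_
  have h4 : ∀ᶠ t : ℝ in 𝓝[>] 0, (1 / 2 : ℝ) < ‖p + t • v‖ :=
    hn.eventually (lt_mem_nhds (by norm_num))
  filter_upwards [h4, self_mem_nhdsWithin] with t ht ht0
  have ht0' : (t : ℝ) ≠ 0 := ne_of_gt ht0
  have h0 : ‖p + t • v‖ ≠ 0 := by
    intro h
    rw [h] at ht
    norm_num at ht
  unfold cur
  set q := p + t • v with hqd
  have hqp : q - p = t • v := by rw [hqd]; abel
  have e1 : ‖q‖⁻¹ • q - p = (‖q‖⁻¹ - 1) • q + (q - p) := by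
    rw [sub_smul, one_smul]
    abel
  have e2 : t⁻¹ • ((‖q‖⁻¹ - 1) • q + (q - p)) = (t⁻¹ * (‖q‖⁻¹ - 1)) • q + v := by
    rw [smul_add t⁻¹, hqp, smul_smul, smul_smul, inv_mul_cancel₀ ht0', one_smul]
  have e3 : -((‖q‖ - ‖p‖) / t * ‖q‖⁻¹) = t⁻¹ * (‖q‖⁻¹ - 1) := by
    rw [hp]
    field_simp
    ring
  rw [e1, e2, e3]

/-- conversely a curve of the sphere with one-sided tangent `v` has `nd p v = 0` -/
theorem nd_of_tendsto {p v : X} (hp : ‖p‖ = 1) {x : ℝ → X} (hx : ∀ᶠ t in 𝓝[>] (0 : ℝ), ‖x t‖ = 1)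
    (hv : Tendsto (fun t : ℝ => t⁻¹ • (x t - p)) (𝓝[>] 0) (𝓝 v)) : nd p v = 0 := by
  have hd := nd_tendsto p v
  refine tendsto_nhds_unique hd ?_
  have h1 : Tendsto (fun t : ℝ => ‖v - t⁻¹ • (x t - p)‖) (𝓝[>] 0) (𝓝 0) := by
    have := (tendsto_const_nhds (x := v)).sub hv
    rw [sub_self] at this
    exact tendsto_zero_iff_norm_tendsto_zero.1 this
  refine squeeze_zero_norm' ?_ h1
  filter_upwards [hx, self_mem_nhdsWithin] with t ht ht0
  have ht0' : (0 : ℝ) < t := ht0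
  have e1 : v - t⁻¹ • (x t - p) = t⁻¹ • ((p + t • v) - x t) := by
    rw [smul_sub, smul_sub, smul_add, smul_smul, inv_mul_cancel₀ ht0'.ne', one_smul]
    abel
  rw [e1, norm_smul, norm_inv, Real.norm_of_nonneg ht0'.le, Real.norm_eq_abs, abs_div,
    abs_of_pos ht0', hp, ← ht, div_eq_inv_mul]
  exact mul_le_mul_of_nonneg_left (abs_norm_sub_norm_le _ _) (inv_nonneg.2 ht0'.le)

/-- smooth points: the tangent cone `{nd p v = 0}` is a linear subspace -/
theorem Smo.add {p v w : X} (h : Smo p) (hv : nd p v = 0) (hw : nd p w = 0) :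
    nd p (v + w) = 0 := by
  have h1 := nd_add_le p v w
  have h2 := nd_add_le p (-v) (-w)
  have h3 := h v
  have h4 := h w
  have h5 := h (v + w)
  have e : -(v + w) = -v + -w := by abel
  rw [e] at h5
  linarith

theorem Smo.smul {p v : X} (h : Smo p) (hv : nd p v = 0) (c : ℝ) : nd p (c • v) = 0 := by
  rcases le_total 0 c with hc | hc
  · rw [nd_smul p v hc, hv, mul_zero]
  · have e : c • v = (-c) • (-v) := by simp
    have h3 := h v
    have h4 : nd p (-v) = 0 := by linarith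
    rw [e, nd_smul p (-v) (by linarith), h4, mul_zero]

/-- if the tangent cone is closed under negation then `p` is smooth (`‖p‖ = 1`) -/
theorem smo_of_neg {p : X} (hp : ‖p‖ = 1) (h : ∀ v : X, nd p v = 0 → nd p (-v) = 0) : Smo p := by
  intro v
  have h1 := nd_add_smul_self hp v (-(nd p v))
  have h2 : nd p (v + (-(nd p v)) • p) = 0 := by rw [h1]; ring
  have h3 := h _ h2
  have e : -(v + (-(nd p v)) • p) = -v + (nd p v) • p := by
    rw [neg_smul]
    abel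
  rw [e, nd_add_smul_self hp] at h3
  linarith

end Vale.Agent.P084G
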