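import Vale.Agent.Lib.P084G.A.Defs

/-! Elementary facts on the second difference quotient `Dq` and norming functionals. -/

open Filter Topology

namespace Vale.Agent.P084G

variable {X : Type*} [NormedAddCommGroup X] [NormedSpace ℝ X]

theorem Dq_nonneg {t : ℝ} (ht : 0 < t) (z v : X) : 0 ≤ Dq t z v := by
  unfold Dq
  refine div_nonneg ?_ ht.le
  have h1 : (2 : ℝ) • z = (z + t • v) + (z - t • v) := by
    rw [two_smul]
    abel
  have h2 : 2 * ‖z‖ = ‖(2 : ℝ) • z‖ := by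
    rw [norm_smul, Real.norm_ofNat]
  have h3 := norm_add_le (z + t • v) (z - t • v)
  rw [← h1, ← h2] at h3
  linarith

theorem DBasic_conv {s t : ℝ} (hs : 0 < s) (hst : s ≤ t) (z v : X) :
    (‖z + s • v‖ - ‖z‖) / s ≤ (‖z + t • v‖ - ‖z‖) / t := by
  have ht : 0 < t := hs.trans_le hst
  have h1 : z + s • v = (1 - s / t) • z + (s / t) • (z + t • v) := by
    rw [smul_add, smul_smul, sub_smul, one_smul, div_mul_cancel₀ s ht.ne']
    abel
  have h2 : ‖z + s • v‖ ≤ (1 - s / t) * ‖z‖ + (s / t) * ‖z + t • v‖ := by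
    rw [h1]
    refine (norm_add_le _ _).trans ?_
    have h6 : 0 ≤ 1 - s / t := by
      rw [sub_nonneg, div_le_one ht]
      exact hst
    have h7 : 0 ≤ s / t := by positivity
    rw [norm_smul, norm_smul, Real.norm_eq_abs, Real.norm_eq_abs, abs_of_nonneg h6,
      abs_of_nonneg h7]
  rw [div_le_div_iff₀ hs ht]
  have h3 : (‖z + s • v‖ - ‖z‖) ≤ (s / t) * (‖z + t • v‖ - ‖z‖) := by linarith
  have h4 := mul_le_mul_of_nonneg_right h3 ht.le
  have h5 : (s / t) * (‖z + t • v‖ - ‖z‖) * t = (‖z + t • v‖ - ‖z‖) * s := by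
    field_simp
  rw [h5] at h4
  exact h4

theorem DBasic_eq (t : ℝ) (z v : X) :
    Dq t z v = (‖z + t • v‖ - ‖z‖) / t + (‖z + t • (-v)‖ - ‖z‖) / t := by
  unfold Dq
  rw [smul_neg, ← sub_eq_add_neg, ← add_div]
  congr 1
  ring

/-- monotone in `t` (each of `(‖z ± t v‖ - ‖z‖) / t` is nondecreasing by convexity) -/
theorem Dq_mono {s t : ℝ} (hs : 0 < s) (hst : s ≤ t) (z v : X) : Dq s z v ≤ Dq t z v := by
  rw [DBasic_eq, DBasic_eq]
  exact add_le_add (DBasic_conv hs hst z v) (DBasic_conv hs hst z (-v))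

/-- ray invariance -/
theorem Dq_smul {l t : ℝ} (hl : 0 < l) (ht : 0 < t) (z v : X) :
    Dq (l * t) (l • z) v = Dq t z v := by
  unfold Dq
  have h1 : l • z + (l * t) • v = l • (z + t • v) := by rw [smul_add, smul_smul]
  have h2 : l • z - (l * t) • v = l • (z - t • v) := by rw [smul_sub, smul_smul]
  rw [h1, h2, norm_smul, norm_smul, norm_smul, Real.norm_eq_abs, abs_of_pos hl]
  have e : l * ‖z + t • v‖ + l * ‖z - t • v‖ - 2 * (l * ‖z‖) =
      l * (‖z + t • v‖ + ‖z - t • v‖ - 2 * ‖z‖) := by ring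
  rw [e, mul_div_mul_left _ _ hl.ne']

theorem Dq_lip {t : ℝ} (ht : 0 < t) (z z' v : X) : Dq t z v ≤ Dq t z' v + 4 * ‖z - z'‖ / t := by
  unfold Dq
  rw [← add_div]
  refine div_le_div_of_nonneg_right ?_ ht.le
  have h1 : ‖z + t • v‖ ≤ ‖z' + t • v‖ + ‖z - z'‖ := by
    have : z + t • v = (z' + t • v) + (z - z') := by abel
    rw [this]
    exact norm_add_le _ _
  have h2 : ‖z - t • v‖ ≤ ‖z' - t • v‖ + ‖z - z'‖ := by
    have : z - t • v = (z' - t • v) + (z - z') := by abel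
    rw [this]
    exact norm_add_le _ _
  have h3 : ‖z'‖ ≤ ‖z‖ + ‖z - z'‖ := by
    have : z' = z - (z - z') := by abel
    calc ‖z'‖ = ‖z - (z - z')‖ := by rw [← this]
      _ ≤ ‖z‖ + ‖z - z'‖ := norm_sub_le _ _
  linarith

theorem Dq_scale {t c : ℝ} (ht : 0 < t) (hc : 0 < c) (z v : X) :
    Dq t z (c • v) = c * Dq (c * t) z v := by
  unfold Dq
  rw [smul_smul, mul_comm t c]
  field_simp

/-- every vector has a norming functional (Hahn-Banach: `exists_dual_vector''`) -/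
theorem exists_nrm (z : X) : ∃ ψ : X →L[ℝ] ℝ, Nrm ψ z := by
  obtain ⟨g, hg1, hg2⟩ := exists_dual_vector'' ℝ z
  exact ⟨g, hg1, by simpa using hg2⟩

theorem Nrm.abs_le {ψ : X →L[ℝ] ℝ} {z : X} (h : Nrm ψ z) (v : X) : |ψ v| ≤ ‖v‖ := by
  have h1 := ψ.le_opNorm v
  rw [Real.norm_eq_abs] at h1
  calc |ψ v| ≤ ‖ψ‖ * ‖v‖ := h1
    _ ≤ 1 * ‖v‖ := mul_le_mul_of_nonneg_right h.1 (norm_nonneg v)
    _ = ‖v‖ := one_mul _

theorem Nrm.le {ψ : X →L[ℝ] ℝ} {z : X} (h : Nrm ψ z) (v : X) : ψ v ≤ ‖v‖ :=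
  (le_abs_self _).trans (h.abs_le v)

theorem Nrm.lower {ψ : X →L[ℝ] ℝ} {z : X} (h : Nrm ψ z) (v : X) : ψ v ≤ ‖z + v‖ - ‖z‖ := by
  have h1 := h.le (z + v)
  rw [map_add, h.2] at h1
  linarith

/-- (NORM) `‖z + τ v‖ - ‖z‖ ≤ τ ψ v + τ D_t(z; v)` for `0 < τ ≤ t` -/
theorem Nrm.upper {ψ : X →L[ℝ] ℝ} {z : X} (h : Nrm ψ z) (v : X) {τ t : ℝ} (hτ : 0 < τ)
    (hτt : τ ≤ t) : ‖z + τ • v‖ - ‖z‖ ≤ τ * ψ v + τ * Dq t z v := by
  have h1 := Dq_mono hτ hτt z v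
  have h2 : τ * Dq τ z v = ‖z + τ • v‖ + ‖z - τ • v‖ - 2 * ‖z‖ := by
    unfold Dq
    rw [mul_div_cancel₀ _ hτ.ne']
  have h3 := h.le (z - τ • v)
  rw [map_sub, map_smul, h.2, smul_eq_mul] at h3
  have h4 := mul_le_mul_of_nonneg_left h1 hτ.le
  linarith

/-- two vectors of the sphere at distance two from each other's negative have a common norming functional -/
theorem exists_common_nrm {x y : X} (hx : ‖x‖ = 1) (hy : ‖y‖ = 1) (h : ‖x + y‖ = 2) :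
    ∃ ψ : X →L[ℝ] ℝ, Nrm ψ x ∧ Nrm ψ y := by
  obtain ⟨ψ, hψ⟩ := exists_nrm (x + y)
  have h1 := hψ.le x
  have h2 := hψ.le y
  have h3 := hψ.2
  rw [map_add, h] at h3
  rw [hx] at h1
  rw [hy] at h2
  refine ⟨ψ, ⟨hψ.1, ?_⟩, hψ.1, ?_⟩
  · rw [hx]
    linarith
  · rw [hy]
    linarith

end Vale.Agent.P084G
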