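import Mathlib

/-!
# P084G (Tingley, infinite-dimensional): basic definitions

`SIso f g` : the restriction of `f` to the unit sphere of `X` is an isometry onto the unit sphere of `Y`, with
inverse (the restriction of) `g`.  The values outside the unit spheres are irrelevant.
`Dq t z v` : the second difference quotient `(‖z + t v‖ + ‖z - t v‖ - 2 ‖z‖) / t`.
`Nrm ψ z` : `ψ` is a norm-`≤1` functional with `ψ z = ‖z‖`.
`nd p v` : the one-sided derivative of the norm at `p` in the direction `v`.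
`Smo p` : the norm is (Gateaux) smooth at `p`.
`HasD f p v w` : `f(p + t v + o(t)) = f p + t w + o(t)` along the normalised curve `cur p v t`.
-/

open Filter Topology

namespace Vale.Agent.P084G

variable {X Y : Type*} [NormedAddCommGroup X] [NormedSpace ℝ X] [NormedAddCommGroup Y]
  [NormedSpace ℝ Y]

/-- `f` restricts to an isometry of the unit sphere of `X` onto that of `Y`, with inverse `g`. -/
structure SIso (f : X → Y) (g : Y → X) : Prop where
  mapf : ∀ x : X, ‖x‖ = 1 → ‖f x‖ = 1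
  mapg : ∀ y : Y, ‖y‖ = 1 → ‖g y‖ = 1
  gf : ∀ x : X, ‖x‖ = 1 → g (f x) = x
  fg : ∀ y : Y, ‖y‖ = 1 → f (g y) = y
  dist : ∀ x x' : X, ‖x‖ = 1 → ‖x'‖ = 1 → ‖f x - f x'‖ = ‖x - x'‖

theorem SIso.distg {f : X → Y} {g : Y → X} (h : SIso f g) (y y' : Y) (hy : ‖y‖ = 1)
    (hy' : ‖y'‖ = 1) : ‖g y - g y'‖ = ‖y - y'‖ := by
  have := h.dist (g y) (g y') (h.mapg y hy) (h.mapg y' hy')
  rw [h.fg y hy, h.fg y' hy'] at this
  exact this.symm

theorem SIso.symm {f : X → Y} {g : Y → X} (h : SIso f g) : SIso g f where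
  mapf := h.mapg
  mapg := h.mapf
  gf := h.fg
  fg := h.gf
  dist := h.distg

/-- the second difference quotient of the norm -/
noncomputable def Dq (t : ℝ) (z v : X) : ℝ := (‖z + t • v‖ + ‖z - t • v‖ - 2 * ‖z‖) / t

/-- `ψ` is a norming functional of `z` -/
def Nrm (ψ : X →L[ℝ] ℝ) (z : X) : Prop := ‖ψ‖ ≤ 1 ∧ ψ z = ‖z‖

/-- the one-sided derivative of the norm at `p` in the direction `v` -/
noncomputable def nd (p v : X) : ℝ := sInf ((fun t : ℝ => (‖p + t • v‖ - ‖p‖) / t) '' Set.Ioi 0)

/-- Gateaux smoothness of the norm at `p` -/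
def Smo (p : X) : Prop := ∀ v : X, nd p v + nd p (-v) = 0

/-- the normalised curve through `p` in the direction `v` -/
noncomputable def cur (p v : X) (t : ℝ) : X := ‖p + t • v‖⁻¹ • (p + t • v)

/-- one-sided directional derivative of `f` at `p` along the sphere -/
def HasD (f : X → Y) (p v : X) (w : Y) : Prop :=
  Tendsto (fun t : ℝ => t⁻¹ • (f (cur p v t) - f p)) (𝓝[>] 0) (𝓝 w)

end Vale.Agent.P084G
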