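import Vale.Agent.Lib.P084G.A.Cur

/-! The directional derivative on the tangent cone (only the isometry of `f` is used). -/

open Filter Topology

namespace Vale.Agent.P084G

variable {X Y : Type*} [NormedAddCommGroup X] [NormedSpace ℝ X] [NormedAddCommGroup Y]
  [NormedSpace ℝ Y]

/-- two sphere-valued families are mapped to families at the same distance -/
private theorem derivCone_norm {f : X → Y} {g : Y → X} (h : SIso f g) {ι : Type*} {F : Filter ι}
    {t : ι → ℝ} {x x' : ι → X} (ht : ∀ᶠ i in F, 0 < t i) (hx : ∀ᶠ i in F, ‖x i‖ = 1)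
    (hx' : ∀ᶠ i in F, ‖x' i‖ = 1) :
    (fun i => ‖(t i)⁻¹ • (f (x i) - f (x' i))‖) =ᶠ[F] fun i => ‖(t i)⁻¹ • (x i - x' i)‖ := by
  filter_upwards [ht, hx, hx'] with i hi h1 h2
  rw [norm_smul, norm_smul, h.dist _ _ h1 h2]

/-- two families with the same tangent -/
private theorem derivCone_sub {Z : Type*} [NormedAddCommGroup Z] [NormedSpace ℝ Z] {ι : Type*}
    {F : Filter ι} {t : ι → ℝ} {x x' : ι → Z} {p v v' : Z}
    (h1 : Tendsto (fun i => (t i)⁻¹ • (x i - p)) F (𝓝 v))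
    (h2 : Tendsto (fun i => (t i)⁻¹ • (x' i - p)) F (𝓝 v')) :
    Tendsto (fun i => (t i)⁻¹ • (x i - x' i)) F (𝓝 (v - v')) := by
  refine (h1.sub h2).congr fun i => ?_
  rw [← smul_sub]
  congr 1
  abel

/-- the derivative controls every sphere-valued curve (along any filter) with one-sided tangent `v` -/
theorem HasD.of_curve {f : X → Y} {g : Y → X} (h : SIso f g) {p v : X} {w : Y} (hp : ‖p‖ = 1)
    (hv : nd p v = 0) (hw : HasD f p v w) {ι : Type*} {F : Filter ι} {t : ι → ℝ} {x : ι → X}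
    (ht : Tendsto t F (𝓝[>] 0)) (hx : ∀ᶠ i in F, ‖x i‖ = 1)
    (hxv : Tendsto (fun i => (t i)⁻¹ • (x i - p)) F (𝓝 v)) :
    Tendsto (fun i => (t i)⁻¹ • (f (x i) - f p)) F (𝓝 w) := by
  have hpos : ∀ᶠ i in F, 0 < t i := by
    have := ht.eventually (self_mem_nhdsWithin : Set.Ioi (0 : ℝ) ∈ 𝓝[>] (0 : ℝ))
    exact this
  have hc1 : ∀ᶠ i in F, ‖cur p v (t i)‖ = 1 := ht.eventually (cur_norm hp)
  have hc2 : Tendsto (fun i => (t i)⁻¹ • (cur p v (t i) - p)) F (𝓝 v) := (cur_tendsto hp hv).comp ht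
  have hc3 : Tendsto (fun i => (t i)⁻¹ • (f (cur p v (t i)) - f p)) F (𝓝 w) := hw.comp ht
  have h1 : Tendsto (fun i => ‖(t i)⁻¹ • (x i - cur p v (t i))‖) F (𝓝 0) := by
    have := (derivCone_sub hxv hc2).norm
    rwa [sub_self, norm_zero] at this
  have h2 : Tendsto (fun i => (t i)⁻¹ • (f (x i) - f (cur p v (t i)))) F (𝓝 0) := by
    rw [tendsto_zero_iff_norm_tendsto_zero]
    exact h1.congr' (derivCone_norm h hpos hx hc1).symm
  have h3 := h2.add hc3
  rw [zero_add] at h3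
  refine h3.congr fun i => ?_
  rw [← smul_add]
  congr 1
  abel

/-- the derivative maps the tangent cone of `p` to the tangent cone of `f p` -/
theorem HasD.nd_eq_zero {f : X → Y} {g : Y → X} (h : SIso f g) {p v : X} {w : Y} (hp : ‖p‖ = 1)
    (hv : nd p v = 0) (hw : HasD f p v w) : nd (f p) w = 0 := by
  refine nd_of_tendsto (h.mapf p hp) (x := fun t => f (cur p v t)) ?_ hw
  filter_upwards [cur_norm (v := v) hp] with t ht
  exact h.mapf _ ht

/-- and the inverse map has the inverse derivative -/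
theorem HasD.inv {f : X → Y} {g : Y → X} (h : SIso f g) {p v : X} {w : Y} (hp : ‖p‖ = 1)
    (hv : nd p v = 0) (hw : HasD f p v w) : HasD g (f p) w v := by
  have hq : ‖f p‖ = 1 := h.mapf p hp
  have hw0 : nd (f p) w = 0 := HasD.nd_eq_zero h hp hv hw
  have hpos : ∀ᶠ t : ℝ in 𝓝[>] (0 : ℝ), 0 < t := self_mem_nhdsWithin
  have hc1 : ∀ᶠ t : ℝ in 𝓝[>] (0 : ℝ), ‖cur p v t‖ = 1 := cur_norm hp
  have hd1 : ∀ᶠ t : ℝ in 𝓝[>] (0 : ℝ), ‖cur (f p) w t‖ = 1 := cur_norm hq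
  have h1 : Tendsto (fun t : ℝ => ‖t⁻¹ • (cur (f p) w t - f (cur p v t))‖) (𝓝[>] 0) (𝓝 0) := by
    have := (derivCone_sub (cur_tendsto hq hw0) hw).norm
    rwa [sub_self, norm_zero] at this
  have h2 : Tendsto (fun t : ℝ => t⁻¹ • (g (cur (f p) w t) - cur p v t)) (𝓝[>] 0) (𝓝 0) := by
    rw [tendsto_zero_iff_norm_tendsto_zero]
    refine h1.congr' ?_
    filter_upwards [hpos, hc1, hd1] with t ht h3 h4
    rw [norm_smul, norm_smul, ← h.dist _ _ (h.mapg _ h4) h3, h.fg _ h4]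
  have h3 := h2.add (cur_tendsto hp hv)
  rw [zero_add] at h3
  refine h3.congr fun t => ?_
  rw [← smul_add, h.gf p hp]
  congr 1
  abel

/-- the derivative is isometric on the tangent cone -/
theorem HasD.dist {f : X → Y} {g : Y → X} (h : SIso f g) {p v v' : X} {w w' : Y} (hp : ‖p‖ = 1)
    (hv : nd p v = 0) (hw : HasD f p v w) (hv' : nd p v' = 0) (hw' : HasD f p v' w') :
    ‖w - w'‖ = ‖v - v'‖ := by
  have hpos : ∀ᶠ t : ℝ in 𝓝[>] (0 : ℝ), 0 < t := self_mem_nhdsWithin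
  have h1 : Tendsto (fun t : ℝ => ‖t⁻¹ • (f (cur p v t) - f (cur p v' t))‖) (𝓝[>] 0)
      (𝓝 ‖w - w'‖) := (derivCone_sub hw hw').norm
  have h2 : Tendsto (fun t : ℝ => ‖t⁻¹ • (cur p v t - cur p v' t)‖) (𝓝[>] 0)
      (𝓝 ‖v - v'‖) := (derivCone_sub (cur_tendsto hp hv) (cur_tendsto hp hv')).norm
  exact tendsto_nhds_unique
    (h1.congr' (derivCone_norm h hpos (cur_norm hp) (cur_norm hp))) h2

end Vale.Agent.P084G
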