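import Vale.Agent.Lib.P084G.A.Lin
import Vale.Agent.Lib.P084G.A.Cur

/-! LIN in the limit. -/

open Filter Topology

namespace Vale.Agent.P084G

variable {X Y : Type*} [NormedAddCommGroup X] [NormedSpace ℝ X] [NormedAddCommGroup Y]
  [NormedSpace ℝ Y]

/-- the curve tends to `p` -/
private theorem DerivLin_cur {p v : X} (hp : ‖p‖ = 1) (hv : nd p v = 0) :
    Tendsto (fun t : ℝ => ‖cur p v t - p‖) (𝓝[>] 0) (𝓝 0) := by
  have h1 := cur_tendsto hp hv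
  have h2 : Tendsto (fun t : ℝ => t) (𝓝[>] 0) (𝓝 0) := tendsto_nhdsWithin_of_tendsto_nhds tendsto_id
  have h3 := (h2.smul h1).norm
  rw [zero_smul, norm_zero] at h3
  refine h3.congr' ?_
  filter_upwards [self_mem_nhdsWithin] with t ht
  rw [smul_smul, mul_inv_cancel₀ (ne_of_gt ht), one_smul]

private theorem DerivLin_eta {f : X → Y} {g : Y → X} (h : SIso f g) {p : X} (hp : ‖p‖ = 1)
    {l : ℕ} (c : Fin l → ℝ) (v : Fin l → X) (w : Fin l → Y) (hv : ∀ i, nd p (v i) = 0)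
    (hw : ∀ i, HasD f p (v i) (w i)) {η : ℝ} (hη : 0 < η) :
    ‖∑ i, c i • w i‖ ≤ 16 * ‖∑ i, c i • v i‖ + η * ∑ i, |c i| * ‖v i‖ := by
  obtain ⟨ρ, hρ, hlin⟩ := lin l η hη
  have hcur : ∀ i, Tendsto (fun t : ℝ => t⁻¹ • (cur p (v i) t - p)) (𝓝[>] 0) (𝓝 (v i)) :=
    fun i => cur_tendsto hp (hv i)
  have t1 : Tendsto (fun t : ℝ => ‖∑ i, c i • (t⁻¹ • (f (cur p (v i) t) - f p))‖) (𝓝[>] 0)
      (𝓝 ‖∑ i, c i • w i‖) :=
    (tendsto_finsetSum _ fun i _ => (hw i).const_smul (c i)).norm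
  have t2 : Tendsto (fun t : ℝ => 16 * ‖∑ i, c i • (t⁻¹ • (cur p (v i) t - p))‖ +
      η * ∑ i, |c i| * ‖t⁻¹ • (cur p (v i) t - p)‖) (𝓝[>] 0)
      (𝓝 (16 * ‖∑ i, c i • v i‖ + η * ∑ i, |c i| * ‖v i‖)) :=
    ((tendsto_finsetSum _ fun i _ => (hcur i).const_smul (c i)).norm.const_mul 16).add
      ((tendsto_finsetSum _ fun i _ => (hcur i).norm.const_mul |c i|).const_mul η)
  refine le_of_tendsto_of_tendsto t1 t2 ?_
  have e1 : ∀ᶠ t : ℝ in 𝓝[>] 0, ∀ i, ‖cur p (v i) t‖ = 1 :=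
    eventually_all.2 fun i => cur_norm hp
  have e2 : ∀ᶠ t : ℝ in 𝓝[>] 0, ∀ i, ‖cur p (v i) t - p‖ ≤ ρ :=
    eventually_all.2 fun i => (DerivLin_cur hp (hv i)).eventually (ge_mem_nhds hρ)
  filter_upwards [e1, e2, self_mem_nhdsWithin] with t h1 h2 ht
  have ht0 : (0 : ℝ) < t := ht
  have hti : 0 < t⁻¹ := inv_pos.2 ht0
  have h3 := hlin X Y f g p (fun i => cur p (v i) t) c h hp h1 h2
  have h4 := mul_le_mul_of_nonneg_left h3 hti.le
  have a1 : t⁻¹ * ‖∑ i, c i • (f (cur p (v i) t) - f p)‖ =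
      ‖∑ i, c i • (t⁻¹ • (f (cur p (v i) t) - f p))‖ := by
    rw [← Real.norm_of_nonneg hti.le, ← norm_smul, Finset.smul_sum, Real.norm_of_nonneg hti.le]
    congr 1
    refine Finset.sum_congr rfl fun i _ => ?_
    rw [smul_comm]
  have a2 : t⁻¹ * (16 * ‖∑ i, c i • (cur p (v i) t - p)‖ +
      η * ∑ i, |c i| * ‖cur p (v i) t - p‖) =
      16 * ‖∑ i, c i • (t⁻¹ • (cur p (v i) t - p))‖ +
      η * ∑ i, |c i| * ‖t⁻¹ • (cur p (v i) t - p)‖ := by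
    have b1 : ‖∑ i, c i • (t⁻¹ • (cur p (v i) t - p))‖ =
        t⁻¹ * ‖∑ i, c i • (cur p (v i) t - p)‖ := by
      rw [← Real.norm_of_nonneg hti.le, ← norm_smul, Finset.smul_sum, Real.norm_of_nonneg hti.le]
      congr 1
      refine Finset.sum_congr rfl fun i _ => ?_
      rw [smul_comm]
    have b2 : ∑ i, |c i| * ‖t⁻¹ • (cur p (v i) t - p)‖ =
        t⁻¹ * ∑ i, |c i| * ‖cur p (v i) t - p‖ := by
      rw [Finset.mul_sum]
      refine Finset.sum_congr rfl fun i _ => ?_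
      rw [norm_smul, Real.norm_of_nonneg hti.le]
      ring
    rw [b1, b2]
    ring
  rw [← a1, ← a2]
  exact h4

/-- LIN in the limit -/
theorem HasD.lin_limit {f : X → Y} {g : Y → X} (h : SIso f g) {p : X} (hp : ‖p‖ = 1)
    {l : ℕ} (c : Fin l → ℝ) (v : Fin l → X) (w : Fin l → Y) (hv : ∀ i, nd p (v i) = 0)
    (hw : ∀ i, HasD f p (v i) (w i)) : ‖∑ i, c i • w i‖ ≤ 16 * ‖∑ i, c i • v i‖ := by
  refine le_of_forall_pos_le_add fun ε hε => ?_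
  have hC : 0 ≤ ∑ i, |c i| * ‖v i‖ :=
    Finset.sum_nonneg fun i _ => mul_nonneg (abs_nonneg _) (norm_nonneg _)
  have hC1 : 0 < (∑ i, |c i| * ‖v i‖) + 1 := by linarith
  have h1 := DerivLin_eta h hp c v w hv hw (div_pos hε hC1)
  refine h1.trans (add_le_add_right ?_ _)
  rw [div_mul_eq_mul_div, div_le_iff₀ hC1]
  exact mul_le_mul_of_nonneg_left (by linarith) hε.le

end Vale.Agent.P084G
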