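import Vale.Agent.Lib.P084G.A.Defs

/-! Quantitative Fang-Wang lemma. -/

namespace Vale.Agent.P084G

variable {X Y : Type*} [NormedAddCommGroup X] [NormedSpace ℝ X] [NormedAddCommGroup Y]
  [NormedSpace ℝ Y]

private theorem FW_pos {f : X → Y} {g : Y → X} (h : SIso f g) {x y : X} (hx : ‖x‖ = 1)
    (hy : ‖y‖ = 1) {s : ℝ} (hs0 : 0 < s) (hs1 : s < 1 / 2) (hxy : 2 - s ^ 2 ≤ ‖x + y‖) :
    2 - 4 * s ≤ ‖f x + f y‖ := by
  set m : X := s • x + (1 - s) • y with hm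
  have hm1 : ‖m‖ ≤ 1 := by
    refine (norm_add_le _ _).trans ?_
    rw [norm_smul, norm_smul, hx, hy, Real.norm_eq_abs, Real.norm_eq_abs, abs_of_pos hs0,
      abs_of_pos (by linarith : (0 : ℝ) < 1 - s)]
    linarith
  have hm2 : 1 - s ^ 2 ≤ ‖m‖ := by
    have e1 : (1 - s) • (x + y) = m + (1 - 2 * s) • x := by
      rw [hm]
      module
    have e2 : ‖(1 - s) • (x + y)‖ ≤ ‖m‖ + (1 - 2 * s) := by
      rw [e1]
      refine (norm_add_le _ _).trans ?_
      rw [norm_smul, hx, Real.norm_eq_abs, abs_of_pos (by linarith : (0 : ℝ) < 1 - 2 * s), mul_one]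
    rw [norm_smul, Real.norm_eq_abs, abs_of_pos (by linarith : (0 : ℝ) < 1 - s)] at e2
    have e3 : (1 - s) * (2 - s ^ 2) ≤ (1 - s) * ‖x + y‖ :=
      mul_le_mul_of_nonneg_left hxy (by linarith)
    nlinarith [pow_pos hs0 3]
  have hm0 : 0 < ‖m‖ := by nlinarith
  set mh : X := ‖m‖⁻¹ • m with hmh
  have hmh1 : ‖mh‖ = 1 := by
    rw [hmh, norm_smul, norm_inv, norm_norm, inv_mul_cancel₀ hm0.ne']
  have hd : ‖mh - m‖ ≤ s ^ 2 := by
    have e1 : mh - m = (‖m‖⁻¹ - 1) • m := by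
      rw [hmh]
      module
    rw [e1, norm_smul, Real.norm_eq_abs, abs_of_nonneg (by
      rw [sub_nonneg]
      exact (one_le_inv₀ hm0).2 hm1)]
    have e2 : (‖m‖⁻¹ - 1) * ‖m‖ = 1 - ‖m‖ := by
      rw [sub_mul, inv_mul_cancel₀ hm0.ne', one_mul]
    rw [e2]
    linarith
  have hn1 : ‖-f mh‖ = 1 := by rw [norm_neg, h.mapf mh hmh1]
  set w : X := g (-f mh) with hw
  have hw1 : ‖w‖ = 1 := h.mapg _ hn1
  have hfw : f w = -f mh := h.fg _ hn1
  have hwm : ‖w - mh‖ = 2 := by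
    rw [← h.dist w mh hw1 hmh1, hfw]
    have e1 : -f mh - f mh = (-2 : ℝ) • f mh := by module
    rw [e1, norm_smul, h.mapf mh hmh1]
    norm_num
  have hwm2 : 2 - s ^ 2 ≤ ‖w - m‖ := by
    have e1 : ‖w - mh‖ ≤ ‖w - m‖ + ‖m - mh‖ := norm_sub_le_norm_sub_add_norm_sub _ _ _
    rw [norm_sub_rev m mh] at e1
    linarith
  have hwy : ‖w - y‖ ≤ 2 := by
    refine (norm_sub_le _ _).trans ?_
    rw [hw1, hy]
    norm_num
  have hwx : 2 - s ≤ ‖w - x‖ := by
    have e1 : w - m = s • (w - x) + (1 - s) • (w - y) := by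
      rw [hm]
      module
    have e2 : ‖w - m‖ ≤ s * ‖w - x‖ + (1 - s) * ‖w - y‖ := by
      rw [e1]
      refine (norm_add_le _ _).trans ?_
      rw [norm_smul, norm_smul, Real.norm_eq_abs, Real.norm_eq_abs, abs_of_pos hs0,
        abs_of_pos (by linarith : (0 : ℝ) < 1 - s)]
    have e3 : (1 - s) * ‖w - y‖ ≤ (1 - s) * 2 := mul_le_mul_of_nonneg_left hwy (by linarith)
    have e4 : s * (2 - s) ≤ s * ‖w - x‖ := by nlinarith
    exact le_of_mul_le_mul_left e4 hs0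
  have hA : 2 - s ≤ ‖f x + f mh‖ := by
    have e1 : f x + f mh = f x - f w := by rw [hfw, sub_neg_eq_add]
    rw [e1, h.dist x w hx hw1, norm_sub_rev]
    exact hwx
  have hB : ‖f mh - f y‖ ≤ 2 * s + s ^ 2 := by
    rw [h.dist mh y hmh1 hy]
    have e1 : ‖mh - y‖ ≤ ‖mh - m‖ + ‖m - y‖ := norm_sub_le_norm_sub_add_norm_sub _ _ _
    have e2 : m - y = s • (x - y) := by
      rw [hm]
      module
    have e3 : ‖m - y‖ ≤ s * 2 := by
      rw [e2, norm_smul, Real.norm_eq_abs, abs_of_pos hs0]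
      refine mul_le_mul_of_nonneg_left ?_ hs0.le
      refine (norm_sub_le _ _).trans ?_
      rw [hx, hy]
      norm_num
    linarith
  have e5 : f x + f mh = (f x + f y) + (f mh - f y) := by abel
  have e6 : ‖f x + f mh‖ ≤ ‖f x + f y‖ + ‖f mh - f y‖ := by
    rw [e5]
    exact norm_add_le _ _
  nlinarith

/-- INF.md section 1.  `m = (1-l) x + l y` with `1 - l = √e`; `‖m‖ ≥ 1 - e` (convexity); `mh = m/‖m‖`,
`w = g (-(f mh))`, `‖w - mh‖ = 2`, hence `‖w - m‖ ≥ 2 - e`, `‖w - x‖ ≥ 2 - √e`, `‖f x + f mh‖ = ‖x - w‖`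
(as `f w = - f mh`), `‖f y - f mh‖ = ‖y - mh‖ ≤ 2√e + e`.  For `e ≤ 1`; when `e = 0` use a limit or treat
it by applying the statement for all small `e' > 0` (the hypothesis is monotone in `e`). -/
theorem fw_quant {f : X → Y} {g : Y → X} (h : SIso f g) {x y : X} (hx : ‖x‖ = 1) (hy : ‖y‖ = 1)
    {e : ℝ} (he0 : 0 ≤ e) (he1 : e ≤ 1) (hxy : 2 - e ≤ ‖x + y‖) :
    2 - 4 * Real.sqrt e ≤ ‖f x + f y‖ := by
  have _ := he1
  have hpos : ∀ s : ℝ, 0 < s → 2 - s ^ 2 ≤ ‖x + y‖ → 2 - 4 * s ≤ ‖f x + f y‖ := by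
    intro s hs hxy'
    rcases lt_or_ge s (1 / 2) with h1 | h1
    · exact FW_pos h hx hy hs h1 hxy'
    · have := norm_nonneg (f x + f y)
      linarith
  rcases he0.eq_or_lt with h0 | h0
  · rw [← h0, Real.sqrt_zero, mul_zero, sub_zero]
    refine le_of_forall_pos_le_add fun δ hδ => ?_
    have h1 := hpos (δ / 4) (by linarith) (by
      rw [← h0] at hxy
      nlinarith [sq_nonneg (δ / 4)])
    linarith
  · refine hpos (Real.sqrt e) (Real.sqrt_pos.2 h0) ?_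
    rw [Real.sq_sqrt he0]
    exact hxy

/-- consequence (apply `fw_quant` to `h.symm`): a gap is preserved up to `g ↦ g^2/8`. -/
theorem gap_image {f : X → Y} {g : Y → X} (h : SIso f g) {x y : X} (hx : ‖x‖ = 1) (hy : ‖y‖ = 1)
    {c : ℝ} (hc0 : 0 ≤ c) (hxy : ‖x + y‖ ≤ 2 - 2 * c) :
    ‖f x + f y‖ ≤ 2 - 2 * (c ^ 2 / 8) := by
  by_contra hcon
  push Not at hcon
  have hfx := h.mapf x hx
  have hfy := h.mapf y hy
  have h2 : ‖f x + f y‖ ≤ 2 := by
    refine (norm_add_le _ _).trans ?_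
    rw [hfx, hfy]
    norm_num
  have hc1 : c ≤ 1 := by
    have := norm_nonneg (x + y)
    linarith
  have he0 : 0 ≤ 2 - ‖f x + f y‖ := by linarith
  have he1 : 2 - ‖f x + f y‖ ≤ 1 := by nlinarith
  have h3 := fw_quant h.symm hfx hfy he0 he1 (by linarith)
  rw [h.gf x hx, h.gf y hy] at h3
  have h4 : c ≤ 2 * Real.sqrt (2 - ‖f x + f y‖) := by linarith
  have h5 : c ^ 2 ≤ (2 * Real.sqrt (2 - ‖f x + f y‖)) ^ 2 := pow_le_pow_left₀ hc0 h4 2
  rw [mul_pow, Real.sq_sqrt he0] at h5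
  linarith

theorem fw_iff {f : X → Y} {g : Y → X} (h : SIso f g) {x y : X} (hx : ‖x‖ = 1) (hy : ‖y‖ = 1) :
    ‖f x + f y‖ = 2 ↔ ‖x + y‖ = 2 := by
  have hfx := h.mapf x hx
  have hfy := h.mapf y hy
  constructor
  · intro h1
    have h3 := fw_quant h.symm hfx hfy le_rfl zero_le_one (by linarith)
    rw [h.gf x hx, h.gf y hy, Real.sqrt_zero, mul_zero, sub_zero] at h3
    refine le_antisymm ?_ h3
    refine (norm_add_le _ _).trans ?_
    rw [hx, hy]
    norm_num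
  · intro h1
    have h3 := fw_quant h hx hy le_rfl zero_le_one (by linarith)
    rw [Real.sqrt_zero, mul_zero, sub_zero] at h3
    refine le_antisymm ?_ h3
    refine (norm_add_le _ _).trans ?_
    rw [hfx, hfy]
    norm_num

end Vale.Agent.P084G
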