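import Vale.Agent.Lib.P084G.A.LinRel
import Vale.Agent.Lib.P084G.A.FW
import Vale.Agent.Lib.P084G.A.Cur

/-! REL in the limit. -/

open Filter Topology

namespace Vale.Agent.P084G

variable {X Y : Type*} [NormedAddCommGroup X] [NormedSpace ℝ X] [NormedAddCommGroup Y]
  [NormedSpace ℝ Y]

/-- REL-lim (INF.md section 7): around every transversal `y` there is `y*` with
`|ψ'(w i) - ψ(v i)| ≤ η` for all norming functionals `ψ` of `p - y*`, `ψ'` of `f p - f y*`. -/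
theorem rel_lim {f : X → Y} {g : Y → X} (h : SIso f g) {p y : X} (hp : ‖p‖ = 1) (hy : ‖y‖ = 1)
    (hpy : ‖p + y‖ < 2) {l : ℕ} (v : Fin l → X) (w : Fin l → Y) (hv : ∀ i, nd p (v i) = 0)
    (hw : ∀ i, HasD f p (v i) (w i)) {η : ℝ} (hη : 0 < η) :
    ∃ y' : X, ‖y'‖ = 1 ∧ ‖y' - y‖ ≤ η ∧ ∀ (ψ : X →L[ℝ] ℝ) (ψ' : Y →L[ℝ] ℝ),
      Nrm ψ (p - y') → Nrm ψ' (f p - f y') → ∀ i, |ψ' (w i) - ψ (v i)| ≤ η := by
  set c0 : ℝ := (2 - ‖p + y‖) / 2 with hc0
  have hc0p : 0 < c0 := by rw [hc0]; linarith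
  have hc01 : c0 ≤ 1 := by
    have := norm_nonneg (p + y)
    rw [hc0]; linarith
  have hc2 : c0 ^ 2 / 8 ≤ c0 := by nlinarith
  set c : ℝ := c0 ^ 2 / 8 with hc
  have hcp : 0 < c := by rw [hc]; positivity
  have hg1 : ‖p + y‖ ≤ 2 - 2 * c := by
    have : ‖p + y‖ = 2 - 2 * c0 := by rw [hc0]; ring
    linarith
  have hg2 : ‖f p + f y‖ ≤ 2 - 2 * c := by
    have : ‖p + y‖ ≤ 2 - 2 * c0 := by
      have : ‖p + y‖ = 2 - 2 * c0 := by rw [hc0]; ring
      linarith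
    exact gap_image h hp hy hc0p.le this
  set M : ℝ := ∑ i, ‖v i‖ with hM
  have hM0 : 0 ≤ M := Finset.sum_nonneg fun i _ => norm_nonneg _
  have hvM : ∀ i, ‖v i‖ ≤ M := fun i =>
    Finset.single_le_sum (f := fun i => ‖v i‖) (fun j _ => norm_nonneg _) (Finset.mem_univ i)
  set e : ℝ := min η 1 with he
  have hep : 0 < e := lt_min hη one_pos
  have he1 : e ≤ 1 := min_le_right _ _
  have heη : e ≤ η := min_le_left _ _
  set η1 : ℝ := e / (4 * (M + 1)) with hη1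
  have hM1 : 0 < 4 * (M + 1) := by positivity
  have hη1p : 0 < η1 := div_pos hep hM1
  have hη1e : η1 ≤ e := by
    rw [hη1, div_le_iff₀ hM1]
    nlinarith
  have hη1M : η1 * (M + 1) = e / 4 := by
    rw [hη1]; field_simp
  obtain ⟨ρ, hρ, hrel⟩ := rel_eps l c η1 hcp (by linarith) hη1p (by linarith)
  have hlim : ∀ᶠ t : ℝ in 𝓝[>] 0, 0 < t ∧ t * (M + 1) ≤ ρ ∧ ∀ i, ‖cur p (v i) t‖ = 1 ∧
      ‖t⁻¹ • (cur p (v i) t - p) - v i‖ ≤ e / 4 ∧
      ‖t⁻¹ • (f (cur p (v i) t) - f p) - w i‖ ≤ e / 4 := by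
    refine (eventually_mem_nhdsWithin.mono fun t ht => ht).and ?_
    refine Filter.Eventually.and ?_ ?_
    · have ht : Tendsto (fun t : ℝ => t * (M + 1)) (𝓝[>] 0) (𝓝 0) := by
        have : Tendsto (fun t : ℝ => t * (M + 1)) (𝓝 0) (𝓝 (0 * (M + 1))) :=
          tendsto_id.mul_const _
        rw [zero_mul] at this
        exact this.mono_left nhdsWithin_le_nhds
      exact (ht.eventually (ge_mem_nhds hρ))
    · rw [Filter.eventually_all]
      intro i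
      refine (cur_norm hp).and ?_
      refine Filter.Eventually.and ?_ ?_
      · have := (cur_tendsto hp (hv i))
        rw [tendsto_iff_norm_sub_tendsto_zero] at this
        exact this.eventually (ge_mem_nhds (by positivity))
      · have := hw i
        rw [HasD, tendsto_iff_norm_sub_tendsto_zero] at this
        exact this.eventually (ge_mem_nhds (by positivity))
  obtain ⟨t, ht0, htρ, hti⟩ := hlim.exists
  have hq : ∀ i, ‖t⁻¹ • (cur p (v i) t - p)‖ ≤ M + 1 := by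
    intro i
    have h1 := (hti i).2.1
    have h2 : ‖t⁻¹ • (cur p (v i) t - p)‖ ≤ ‖t⁻¹ • (cur p (v i) t - p) - v i‖ + ‖v i‖ := by
      have := norm_add_le (t⁻¹ • (cur p (v i) t - p) - v i) (v i)
      simpa using this
    have := hvM i
    linarith
  have hx : ∀ i, ‖cur p (v i) t - p‖ ≤ ρ := by
    intro i
    have h1 := hq i
    rw [norm_smul, norm_inv, Real.norm_of_nonneg ht0.le] at h1
    have h2 : ‖cur p (v i) t - p‖ ≤ t * (M + 1) := by
      rw [inv_mul_le_iff₀ ht0] at h1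
      exact h1
    linarith
  obtain ⟨y', hy', hyy, hfin⟩ := hrel X Y f g p y (fun i => cur p (v i) t) h hp hy hg1 hg2
    (fun i => (hti i).1) hx
  refine ⟨y', hy', hyy.trans (hη1e.trans heη), fun ψ ψ' hψ hψ' i => ?_⟩
  have h1 := hfin ψ ψ' hψ hψ' i
  have h2 : |ψ' (t⁻¹ • (f (cur p (v i) t) - f p)) - ψ (t⁻¹ • (cur p (v i) t - p))| ≤
      η1 * ‖t⁻¹ • (cur p (v i) t - p)‖ := by
    rw [map_smul, map_smul, norm_smul, norm_inv, Real.norm_of_nonneg ht0.le, smul_eq_mul,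
      smul_eq_mul, ← mul_sub, abs_mul, abs_of_pos (inv_pos.2 ht0)]
    calc t⁻¹ * |ψ' (f (cur p (v i) t) - f p) - ψ (cur p (v i) t - p)|
        ≤ t⁻¹ * (η1 * ‖cur p (v i) t - p‖) :=
          mul_le_mul_of_nonneg_left h1 (inv_pos.2 ht0).le
      _ = η1 * (t⁻¹ * ‖cur p (v i) t - p‖) := by ring
  have h3 : |ψ' (t⁻¹ • (f (cur p (v i) t) - f p)) - ψ' (w i)| ≤ e / 4 := by
    rw [← map_sub]
    calc |ψ' (t⁻¹ • (f (cur p (v i) t) - f p) - w i)|
        ≤ ‖ψ'‖ * ‖t⁻¹ • (f (cur p (v i) t) - f p) - w i‖ := ψ'.le_opNorm _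
      _ ≤ 1 * ‖t⁻¹ • (f (cur p (v i) t) - f p) - w i‖ :=
          mul_le_mul_of_nonneg_right hψ'.1 (norm_nonneg _)
      _ ≤ e / 4 := by rw [one_mul]; exact (hti i).2.2
  have h4 : |ψ (t⁻¹ • (cur p (v i) t - p)) - ψ (v i)| ≤ e / 4 := by
    rw [← map_sub]
    calc |ψ (t⁻¹ • (cur p (v i) t - p) - v i)|
        ≤ ‖ψ‖ * ‖t⁻¹ • (cur p (v i) t - p) - v i‖ := ψ.le_opNorm _
      _ ≤ 1 * ‖t⁻¹ • (cur p (v i) t - p) - v i‖ :=
          mul_le_mul_of_nonneg_right hψ.1 (norm_nonneg _)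
      _ ≤ e / 4 := by rw [one_mul]; exact (hti i).2.1
  have h5 : η1 * ‖t⁻¹ • (cur p (v i) t - p)‖ ≤ e / 4 := by
    rw [← hη1M]
    exact mul_le_mul_of_nonneg_left (hq i) hη1p.le
  have h6 : |ψ' (w i) - ψ (v i)| ≤ e / 4 + e / 4 + e / 4 := by
    rw [abs_le] at h2 h3 h4 ⊢
    constructor <;> linarith [h2.1, h2.2, h3.1, h3.2, h4.1, h4.2]
  linarith

end Vale.Agent.P084G
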