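import Mathlib

/-! Pure linear algebra: extension of a map from a subset to a linear map. -/

namespace Vale.Agent.P084G

private theorem finsupp_sum_fin {X : Type*} {Z : Type*} [AddCommGroup Z] [Module ℝ Z] (C : Set X)
    (f : C →₀ ℝ) :
    ∃ (l : ℕ) (c : Fin l → ℝ) (v : Fin l → C), ∀ g : C → Z,
      Finsupp.linearCombination ℝ g f = ∑ i, c i • g (v i) := by
  classical
  refine ⟨f.support.card, fun i => f (f.support.equivFin.symm i),
    fun i => (f.support.equivFin.symm i : C), fun g => ?_⟩
  rw [Finsupp.linearCombination_apply, Finsupp.sum]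
  rw [← Finset.sum_coe_sort f.support (fun x => f x • g x)]
  exact (Equiv.sum_comp f.support.equivFin.symm (fun x : f.support => f x • g x)).symm

/-- If `G : X → Y` respects every finite linear relation between elements of `C`, then there is a linear map which agrees
with `G` on `C`.  (Choose a maximal linearly independent subset of `C`, `exists_linearIndepOn_extension` or
`Submodule.span` basis and `LinearMap.exists_extend`; or: factor `Finsupp.linearCombination ℝ (fun v : C => G v)` through
`Finsupp.linearCombination ℝ (fun v : C => (v : X))`, whose kernel it kills, and extend from the range by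
`LinearMap.exists_extend`.) -/
theorem lin_ext {X Y : Type*} [AddCommGroup X] [Module ℝ X] [AddCommGroup Y] [Module ℝ Y]
    (C : Set X) (G : X → Y)
    (hG : ∀ (l : ℕ) (c : Fin l → ℝ) (v : Fin l → X), (∀ i, v i ∈ C) →
      ∑ i, c i • v i = 0 → ∑ i, c i • G (v i) = 0) :
    ∃ L : X →ₗ[ℝ] Y, ∀ v ∈ C, L v = G v := by
  classical
  set p : (C →₀ ℝ) →ₗ[ℝ] X := Finsupp.linearCombination ℝ (fun v : C => (v : X)) with hp
  set q : (C →₀ ℝ) →ₗ[ℝ] Y := Finsupp.linearCombination ℝ (fun v : C => G v) with hq
  have hker : LinearMap.ker p ≤ LinearMap.ker q := by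
    intro f hf
    rw [LinearMap.mem_ker] at hf ⊢
    obtain ⟨l, c, v, h⟩ := finsupp_sum_fin (Z := X × Y) C f
    have h1 := h (fun x => ((x : X), G x))
    have e1 : p f = ∑ i, c i • ((v i : X)) := by
      have := congrArg Prod.fst h1
      rw [Finsupp.linearCombination_apply, Finsupp.sum] at this
      simp only [Prod.fst_sum, Prod.smul_fst] at this
      rw [hp, Finsupp.linearCombination_apply, Finsupp.sum]
      exact this
    have e2 : q f = ∑ i, c i • (G (v i)) := by
      have := congrArg Prod.snd h1
      rw [Finsupp.linearCombination_apply, Finsupp.sum] at this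
      simp only [Prod.snd_sum, Prod.smul_snd] at this
      rw [hq, Finsupp.linearCombination_apply, Finsupp.sum]
      exact this
    rw [e2]
    exact hG l c (fun i => v i) (fun i => (v i).2) (by rw [← e1]; exact hf)
  obtain ⟨s, hs⟩ := p.rangeRestrict.exists_rightInverse_of_surjective
    (LinearMap.range_rangeRestrict p)
  obtain ⟨L, hL⟩ := LinearMap.exists_extend (q.comp s)
  refine ⟨L, fun v hv => ?_⟩
  have hpv : p (Finsupp.single ⟨v, hv⟩ 1) = v := by
    rw [hp, Finsupp.linearCombination_single, one_smul]
  have hqv : q (Finsupp.single ⟨v, hv⟩ 1) = G v := by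
    rw [hq, Finsupp.linearCombination_single, one_smul]
  have hmem : v ∈ LinearMap.range p := ⟨_, hpv⟩
  have h1 : L v = q (s ⟨v, hmem⟩) := by
    have := congrArg (fun T => T (⟨v, hmem⟩ : LinearMap.range p)) hL
    simpa using this
  have h2 : p (s ⟨v, hmem⟩) = v := by
    have := congrArg (fun T => T (⟨v, hmem⟩ : LinearMap.range p)) hs
    have := congrArg Subtype.val this
    simpa using this
  have h3 : s ⟨v, hmem⟩ - Finsupp.single ⟨v, hv⟩ 1 ∈ LinearMap.ker q := by
    apply hker
    rw [LinearMap.mem_ker, map_sub, h2, hpv, sub_self]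
  rw [LinearMap.mem_ker, map_sub, sub_eq_zero] at h3
  rw [h1, h3, hqv]

/-- elements of a span as finite sums indexed by `Fin l` -/
theorem mem_span_fin {X : Type*} [AddCommGroup X] [Module ℝ X] (C : Set X) {u : X}
    (hu : u ∈ Submodule.span ℝ C) :
    ∃ (l : ℕ) (c : Fin l → ℝ) (v : Fin l → X), (∀ i, v i ∈ C) ∧ u = ∑ i, c i • v i := by
  classical
  rw [Finsupp.mem_span_iff_linearCombination] at hu
  obtain ⟨f, hf⟩ := hu
  obtain ⟨l, c, v, h⟩ := finsupp_sum_fin (Z := X) C f
  refine ⟨l, c, fun i => v i, fun i => (v i).2, ?_⟩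
  rw [← hf]
  exact h (fun x => (x : X))

end Vale.Agent.P084G
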