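import Vale.Agent.Lib.P084G.A.DerivEx
import Vale.Agent.Lib.P084G.A.DerivCone
import Vale.Agent.Lib.P084G.A.DerivLin
import Vale.Agent.Lib.P084G.A.DerivRel
import Vale.Agent.Lib.P084G.A.LinExt

/-! The derivative of a sphere isometry at a point (INF.md section 7). -/

open Filter Topology

namespace Vale.Agent.P084G

variable {X Y : Type*} [NormedAddCommGroup X] [NormedSpace ℝ X] [NormedAddCommGroup Y]
  [NormedSpace ℝ Y]

/-- **the derivative at `p`**: a linear map `G : X → Y` which is the derivative of `f` in the directions of the tangent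
cone, `16`-bounded on the span of the cone (use `lin_ext` with `C = {v | nd p v = 0}`). -/
theorem exists_deriv [CompleteSpace Y] {f : X → Y} {g : Y → X} (h : SIso f g) {p : X}
    (hp : ‖p‖ = 1) : ∃ G : X →ₗ[ℝ] Y, (∀ v, nd p v = 0 → HasD f p v (G v)) ∧
      ∀ u ∈ Submodule.span ℝ {v : X | nd p v = 0}, ‖G u‖ ≤ 16 * ‖u‖ := by
  have h1 : ∀ v : X, ∃ w : Y, nd p v = 0 → HasD f p v w := by
    intro v
    by_cases hv : nd p v = 0
    · obtain ⟨w, hw⟩ := exists_hasD h hp hv
      exact ⟨w, fun _ => hw⟩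
    · exact ⟨0, fun hv' => absurd hv' hv⟩
  choose G0 hG0 using h1
  have hbd : ∀ (l : ℕ) (c : Fin l → ℝ) (v : Fin l → X), (∀ i, v i ∈ {v : X | nd p v = 0}) →
      ‖∑ i, c i • G0 (v i)‖ ≤ 16 * ‖∑ i, c i • v i‖ := fun l c v hv =>
    HasD.lin_limit h hp c v (fun i => G0 (v i)) hv fun i => hG0 (v i) (hv i)
  obtain ⟨L, hL⟩ := lin_ext {v : X | nd p v = 0} G0 (by
    intro l c v hv h0
    have h2 := hbd l c v hv
    rw [h0, norm_zero, mul_zero] at h2
    exact norm_le_zero_iff.1 h2)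
  refine ⟨L, fun v hv => ?_, fun u hu => ?_⟩
  · rw [hL v hv]
    exact hG0 v hv
  · obtain ⟨l, c, v, hv, rfl⟩ := mem_span_fin _ hu
    have h2 : L (∑ i, c i • v i) = ∑ i, c i • G0 (v i) := by
      rw [map_sum]
      refine Finset.sum_congr rfl fun i _ => ?_
      rw [map_smul, hL (v i) (hv i)]
    rw [h2]
    exact hbd l c v hv

end Vale.Agent.P084G
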