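import Vale.Agent.Lib.P084G.A.Lin
import Vale.Agent.Lib.P084G.A.Cur

/-! Existence of the directional derivative. -/

open Filter Topology

namespace Vale.Agent.P084G

variable {X Y : Type*} [NormedAddCommGroup X] [NormedSpace ℝ X] [NormedAddCommGroup Y]
  [NormedSpace ℝ Y]

/-- existence of the directional derivative: `k_t = (f (cur p v t) - f p)/t` is Cauchy by `lin 2` with
coefficients `1/t, -1/s` -/
theorem exists_hasD [CompleteSpace Y] {f : X → Y} {g : Y → X} (h : SIso f g) {p v : X}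
    (hp : ‖p‖ = 1) (hv : nd p v = 0) : ∃ w : Y, HasD f p v w := by
  have hT := cur_tendsto hp hv
  have hcauchy : Cauchy (map (fun t : ℝ => t⁻¹ • (f (cur p v t) - f p)) (𝓝[>] 0)) := by
    rw [Metric.cauchy_iff]
    refine ⟨inferInstance, ?_⟩
    intro ε hε
    have hC : 0 < ‖v‖ + 1 := by positivity
    obtain ⟨ρ, hρ, hlin⟩ := lin 2 (ε / (8 * (‖v‖ + 1))) (by positivity)
    have h1 : ∀ᶠ t : ℝ in 𝓝[>] 0, ‖t⁻¹ • (cur p v t - p) - v‖ < min 1 (ε / 64) := by
      have h2 := (Metric.tendsto_nhds.1 hT) (min 1 (ε / 64)) (by positivity)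
      simpa only [dist_eq_norm] using h2
    have h3 : ∀ᶠ t : ℝ in 𝓝[>] 0, t < ρ / (‖v‖ + 1) :=
      mem_nhdsWithin_of_mem_nhds (Iio_mem_nhds (by positivity))
    have h4 : ∀ᶠ t : ℝ in 𝓝[>] 0, 0 < t := self_mem_nhdsWithin
    have h5 := (((h1.and h3).and h4).and (cur_norm (v := v) hp))
    refine ⟨(fun t : ℝ => t⁻¹ • (f (cur p v t) - f p)) '' {t : ℝ | ((‖t⁻¹ • (cur p v t - p) - v‖ <
      min 1 (ε / 64) ∧ t < ρ / (‖v‖ + 1)) ∧ 0 < t) ∧ ‖cur p v t‖ = 1}, ?_, ?_⟩
    · exact image_mem_map h5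
    · rintro _ ⟨t, ⟨⟨⟨ht1, ht2⟩, ht3⟩, ht4⟩, rfl⟩ _ ⟨s, ⟨⟨⟨hs1, hs2⟩, hs3⟩, hs4⟩, rfl⟩
      have key : ∀ r : ℝ, 0 < r → ‖r⁻¹ • (cur p v r - p) - v‖ < min 1 (ε / 64) →
          r⁻¹ * ‖cur p v r - p‖ ≤ ‖v‖ + 1 := by
        intro r hr hr1
        have e1 : r⁻¹ * ‖cur p v r - p‖ = ‖r⁻¹ • (cur p v r - p)‖ := by
          rw [norm_smul, Real.norm_of_nonneg (inv_nonneg.2 hr.le)]
        have e2 : ‖r⁻¹ • (cur p v r - p)‖ ≤ ‖r⁻¹ • (cur p v r - p) - v‖ + ‖v‖ := by
          have := norm_add_le (r⁻¹ • (cur p v r - p) - v) v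
          rwa [sub_add_cancel] at this
        have e3 : min 1 (ε / 64) ≤ 1 := min_le_left _ _
        rw [e1]
        linarith
      have key2 : ∀ r : ℝ, 0 < r → ‖r⁻¹ • (cur p v r - p) - v‖ < min 1 (ε / 64) →
          r < ρ / (‖v‖ + 1) → ‖cur p v r - p‖ ≤ ρ := by
        intro r hr hr1 hr2
        have e1 := key r hr hr1
        rw [inv_mul_le_iff₀ hr] at e1
        rw [lt_div_iff₀ hC] at hr2
        linarith
      have hl := hlin X Y f g p ![cur p v t, cur p v s] ![t⁻¹, -s⁻¹] h hp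
        (by
          intro i
          fin_cases i
          · simpa using ht4
          · simpa using hs4)
        (by
          intro i
          fin_cases i
          · simpa using key2 t ht3 ht1 ht2
          · simpa using key2 s hs3 hs1 hs2)
      simp only [Fin.sum_univ_two, Matrix.cons_val_zero, Matrix.cons_val_one] at hl
      have a1 : |t⁻¹| = t⁻¹ := abs_of_nonneg (inv_nonneg.2 ht3.le)
      have a2 : |-s⁻¹| = s⁻¹ := by rw [abs_neg]; exact abs_of_nonneg (inv_nonneg.2 hs3.le)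
      rw [a1, a2] at hl
      have b1 : t⁻¹ • (f (cur p v t) - f p) + -s⁻¹ • (f (cur p v s) - f p)
          = t⁻¹ • (f (cur p v t) - f p) - s⁻¹ • (f (cur p v s) - f p) := by
        rw [neg_smul, ← sub_eq_add_neg]
      have b2 : t⁻¹ • (cur p v t - p) + -s⁻¹ • (cur p v s - p)
          = (t⁻¹ • (cur p v t - p) - v) - (s⁻¹ • (cur p v s - p) - v) := by
        rw [neg_smul, ← sub_eq_add_neg]
        abel
      rw [b1, b2] at hl
      have c1 := norm_sub_le (t⁻¹ • (cur p v t - p) - v) (s⁻¹ • (cur p v s - p) - v)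
      have c2 : min 1 (ε / 64) ≤ ε / 64 := min_le_right _ _
      have c3 : ε / (8 * (‖v‖ + 1)) * (t⁻¹ * ‖cur p v t - p‖ + s⁻¹ * ‖cur p v s - p‖)
          ≤ ε / (8 * (‖v‖ + 1)) * (2 * (‖v‖ + 1)) := by
        apply mul_le_mul_of_nonneg_left _ (by positivity)
        have := key t ht3 ht1
        have := key s hs3 hs1
        linarith
      have c4 : ε / (8 * (‖v‖ + 1)) * (2 * (‖v‖ + 1)) = ε / 4 := by
        field_simp
        norm_num
      rw [dist_eq_norm]
      simp only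
      rw [c4] at c3
      linarith
  obtain ⟨w, hw⟩ := CompleteSpace.complete hcauchy
  exact ⟨w, hw⟩

end Vale.Agent.P084G
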