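import Vale.Agent.Lib.P084G.A.GenStep

/-! Simultaneous goodness (INF.md section 4): the induction. -/

namespace Vale.Agent.P084G

universe u v

/-- a test survives a small move -/
private theorem gen_move {X : Type u} [NormedAddCommGroup X] [NormedSpace ℝ X] {s t δ ε η : ℝ}
    {z z1 a : X} (hs : 0 < s) (hst : s ≤ t) (htδ : t ≤ δ) (h : Dq δ z1 a ≤ η / 2)
    (hz : ‖z - z1‖ ≤ ε) (hε : ε ≤ η * t / 8) : Dq s z a ≤ η := by
  have ht : 0 < t := lt_of_lt_of_le hs hst
  have h1 : Dq s z a ≤ Dq t z a := Dq_mono hs hst z a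
  have h2 : Dq t z a ≤ Dq t z1 a + 4 * ‖z - z1‖ / t := Dq_lip ht z z1 a
  have h3 : Dq t z1 a ≤ Dq δ z1 a := Dq_mono ht htδ z1 a
  have h4 : 4 * ‖z - z1‖ / t ≤ η / 2 := by
    rw [div_le_iff₀ ht]
    linarith
  linarith

/-- **GEN.**  Induction on `l`; the head of the list is treated by `gen_step` (on the `X` side, or on the `Y` side and
pulled back by `g`), the tail by the induction hypothesis for `(l-1, M, c/2, min (η/2) (η δ/8))`; the head test survives
the second move by `Dq_lip`. -/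
theorem gen (l : ℕ) : ∀ (M c η : ℝ), 0 ≤ M → 0 < c → c ≤ 1 → 0 < η → η ≤ 1 →
    ∃ δ : ℝ, 0 < δ ∧ ∀ (X : Type u) [NormedAddCommGroup X] [NormedSpace ℝ X]
      (Y : Type v) [NormedAddCommGroup Y] [NormedSpace ℝ Y] (f : X → Y) (g : Y → X)
      (p y : X) (L : List (X ⊕ Y)), SIso f g → ‖p‖ = 1 → ‖y‖ = 1 →
      ‖p + y‖ ≤ 2 - 2 * c → ‖f p + f y‖ ≤ 2 - 2 * c → L.length ≤ l →
      (∀ a : X, Sum.inl a ∈ L → ‖a‖ ≤ M) → (∀ b : Y, Sum.inr b ∈ L → ‖b‖ ≤ M) →
      ∃ y' : X, ‖y'‖ = 1 ∧ ‖y' - y‖ ≤ η ∧ GoodL f p y' δ η L := by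
  induction l with
  | zero =>
    intro M c η hM hc hc1 hη hη1
    refine ⟨1, one_pos, ?_⟩
    intro X _ _ Y _ _ f g p y L hfg hp hy hgap hgap' hL hLa hLb
    have hL0 : L = [] := List.length_eq_zero_iff.1 (Nat.le_zero.1 hL)
    subst hL0
    refine ⟨y, hy, ?_, ?_⟩
    · rw [sub_self, norm_zero]; exact hη.le
    · refine ⟨fun a ha => absurd ha (by simp), fun b hb => absurd hb (by simp)⟩
  | succ l ih =>
    intro M c η hM hc hc1 hη hη1
    obtain ⟨δa, hδa, hstepa⟩ := gen_step.{u} M c η hM hc hc1 hη hη1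
    obtain ⟨δb, hδb, hstepb⟩ := gen_step.{v} M c η hM hc hc1 hη hη1
    obtain ⟨δh, hδh⟩ : ∃ δh : ℝ, δh = min δa δb := ⟨_, rfl⟩
    have hδh0 : 0 < δh := by rw [hδh]; exact lt_min hδa hδb
    have hδha : δh ≤ δa := by rw [hδh]; exact min_le_left _ _
    have hδhb : δh ≤ δb := by rw [hδh]; exact min_le_right _ _
    obtain ⟨η2, hη2⟩ : ∃ η2 : ℝ, η2 = min (η / 2) (η * δh / 8) := ⟨_, rfl⟩
    have hη20 : 0 < η2 := by rw [hη2]; exact lt_min (by positivity) (by positivity)
    have hη2a : η2 ≤ η / 2 := by rw [hη2]; exact min_le_left _ _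
    have hη2b : η2 ≤ η * δh / 8 := by rw [hη2]; exact min_le_right _ _
    obtain ⟨δ2, hδ2, hih⟩ := ih M (c / 2) η2 hM (by positivity) (by linarith) hη20 (by linarith)
    obtain ⟨δ, hδ⟩ : ∃ δ : ℝ, δ = min δh δ2 := ⟨_, rfl⟩
    have hδ0 : 0 < δ := by rw [hδ]; exact lt_min hδh0 hδ2
    have hδ1 : δ ≤ δh := by rw [hδ]; exact min_le_left _ _
    have hδ3 : δ ≤ δ2 := by rw [hδ]; exact min_le_right _ _
    refine ⟨δ, hδ0, ?_⟩
    intro X _ _ Y _ _ f g p y L hfg hp hy hgap hgap' hL hLa hLb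
    rcases L with _ | ⟨T, L'⟩
    · refine ⟨y, hy, ?_, ?_⟩
      · rw [sub_self, norm_zero]; exact hη.le
      · refine ⟨fun a ha => absurd ha (by simp), fun b hb => absurd hb (by simp)⟩
    have hL' : L'.length ≤ l := by
      rw [List.length_cons] at hL
      omega
    have hLa' : ∀ a : X, Sum.inl a ∈ L' → ‖a‖ ≤ M := fun a ha =>
      hLa a (List.mem_cons_of_mem _ ha)
    have hLb' : ∀ b : Y, Sum.inr b ∈ L' → ‖b‖ ≤ M := fun b hb =>
      hLb b (List.mem_cons_of_mem _ hb)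
    -- the intermediate point
    obtain ⟨y1, hy1, hy1y, hhead⟩ : ∃ y1 : X, ‖y1‖ = 1 ∧ ‖y1 - y‖ ≤ min (η / 2) (c / 4) ∧
        (∀ a : X, T = Sum.inl a → Dq δa (p - y1) a ≤ η / 2) ∧
        (∀ b : Y, T = Sum.inr b → Dq δb (f p - f y1) b ≤ η / 2) := by
      rcases T with a | b
      · obtain ⟨y1, h1, h2, h3⟩ := hstepa X p y a hp hy (hLa a (List.mem_cons_self)) hgap
        refine ⟨y1, h1, h2, ?_, ?_⟩
        · intro a' ha'
          rw [Sum.inl.injEq] at ha'
          rw [← ha']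
          exact h3
        · intro b hb
          exact absurd hb (by simp)
      · obtain ⟨y1, h1, h2, h3⟩ := hstepb Y (f p) (f y) b (hfg.mapf p hp) (hfg.mapf y hy)
          (hLb b (List.mem_cons_self)) hgap'
        refine ⟨g y1, hfg.mapg y1 h1, ?_, ?_, ?_⟩
        · have h4 := hfg.distg y1 (f y) h1 (hfg.mapf y hy)
          rw [hfg.gf y hy] at h4
          rw [h4]
          exact h2
        · intro a ha
          exact absurd ha (by simp)
        · intro b' hb'
          rw [Sum.inr.injEq] at hb'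
          rw [← hb', hfg.fg y1 h1]
          exact h3
    have hy1a : ‖y1 - y‖ ≤ η / 2 := hy1y.trans (min_le_left _ _)
    have hy1c : ‖y1 - y‖ ≤ c / 4 := hy1y.trans (min_le_right _ _)
    have hgap1 : ‖p + y1‖ ≤ 2 - 2 * (c / 2) := by
      have h1 : p + y1 = (p + y) + (y1 - y) := by abel
      rw [h1]
      have := norm_add_le (p + y) (y1 - y)
      linarith
    have hgap1' : ‖f p + f y1‖ ≤ 2 - 2 * (c / 2) := by
      have h1 : f p + f y1 = (f p + f y) + (f y1 - f y) := by abel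
      rw [h1]
      have h2 := norm_add_le (f p + f y) (f y1 - f y)
      have h3 := hfg.dist y1 y hy1 hy
      linarith
    obtain ⟨y', hy', hy'1, hgood⟩ := hih X Y f g p y1 L' hfg hp hy1 hgap1 hgap1' hL' hLa' hLb'
    refine ⟨y', hy', ?_, ?_, ?_⟩
    · have h1 : y' - y = (y' - y1) + (y1 - y) := by abel
      rw [h1]
      have := norm_add_le (y' - y1) (y1 - y)
      linarith
    · intro a ha
      rcases List.mem_cons.1 ha with h | h
      · refine gen_move hδ0 hδ1 hδha (hhead.1 a h.symm) (ε := η2) ?_ hη2b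
        have h1 : p - y' - (p - y1) = -(y' - y1) := by abel
        rw [h1, norm_neg]
        exact hy'1
      · exact ((Dq_mono hδ0 hδ3 _ _).trans (hgood.1 a h)).trans (by linarith)
    · intro b hb
      rcases List.mem_cons.1 hb with h | h
      · refine gen_move hδ0 hδ1 hδhb (hhead.2 b h.symm) (ε := η2) ?_ hη2b
        have h1 : f p - f y' - (f p - f y1) = -(f y' - f y1) := by abel
        rw [h1, norm_neg, hfg.dist y' y1 hy' hy1]
        exact hy'1
      · exact ((Dq_mono hδ0 hδ3 _ _).trans (hgood.2 b h)).trans (by linarith)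

end Vale.Agent.P084G
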