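import Vale.Agent.Lib.P084G.A.Defs

/-! Re-projection lemma (INF.md section 2) and telescoping (section 3). -/

open Finset

namespace Vale.Agent.P084G

variable {X : Type*} [NormedAddCommGroup X] [NormedSpace ℝ X]

/-- INF.md section 2.  `φ(s) = ‖p - s z‖`, `z = p - y`, is convex with `φ 0 = φ 1 = 1`, `φ(1/2) ≤ 1 - c`; so
`φ(1+d) ≥ 1 + 2 c d` and `φ(1-d) ≤ 1 - 2 c d` (`0 ≤ d ≤ 1/2`); with `d = ‖u-z‖/c`: `‖p-(1+d)u‖ ≥ 1`,
`‖p-(1-d)u‖ ≤ 1`; intermediate value theorem. -/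
theorem reproj {p y u : X} (hp : ‖p‖ = 1) (hy : ‖y‖ = 1) {c : ℝ} (hc : 0 < c)
    (hgap : ‖p + y‖ ≤ 2 - 2 * c) (hu : ‖u - (p - y)‖ ≤ c / 2) :
    ∃ l : ℝ, 1 / 2 ≤ l ∧ l ≤ 2 ∧ ‖p - l • u‖ = 1 ∧
      ‖(p - l • u) - y‖ ≤ (4 / c) * ‖u - (p - y)‖ := by
  have hc1 : c ≤ 1 := by
    have := norm_nonneg (p + y)
    linarith
  set z := p - y with hz
  set e := ‖u - z‖ with he
  have he0 : 0 ≤ e := norm_nonneg _
  set d := e / c with hd
  have hcd : c * d = e := by rw [hd]; field_simp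
  have hd0 : 0 ≤ d := by positivity
  have hd1 : d ≤ 1 / 2 := by
    rw [hd, div_le_iff₀ hc]; linarith
  -- upper side
  have h1 : 1 + 2 * e ≤ ‖p - (1 + d) • z‖ := by
    have e1 : (1 / 2 + d) • y = (d / 2) • (p + y) + (1 / 2 : ℝ) • (p - (1 + d) • z) := by
      rw [hz]; module
    have h := norm_add_le ((d / 2) • (p + y)) ((1 / 2 : ℝ) • (p - (1 + d) • z))
    rw [← e1, norm_smul, norm_smul, norm_smul, hy, Real.norm_of_nonneg (by positivity),
      Real.norm_of_nonneg (by positivity), Real.norm_of_nonneg (by positivity)] at h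
    have h2 : d / 2 * ‖p + y‖ ≤ d / 2 * (2 - 2 * c) :=
      mul_le_mul_of_nonneg_left hgap (by positivity)
    nlinarith
  have h2 : ‖p - (1 - d) • z‖ ≤ 1 - 2 * e := by
    have e1 : p - (1 - d) • z = d • (p + y) + (1 - 2 * d) • y := by
      rw [hz]; module
    rw [e1]
    refine (norm_add_le _ _).trans ?_
    rw [norm_smul, norm_smul, hy, Real.norm_of_nonneg hd0,
      Real.norm_of_nonneg (by linarith : (0 : ℝ) ≤ 1 - 2 * d)]
    have h3 : d * ‖p + y‖ ≤ d * (2 - 2 * c) := mul_le_mul_of_nonneg_left hgap hd0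
    nlinarith
  have cmp : ∀ s : ℝ, 0 ≤ s → |‖p - s • u‖ - ‖p - s • z‖| ≤ s * e := by
    intro s hs
    have h3 := abs_norm_sub_norm_le (p - s • u) (p - s • z)
    have e2 : p - s • u - (p - s • z) = -(s • (u - z)) := by module
    rw [e2, norm_neg, norm_smul, Real.norm_of_nonneg hs] at h3
    exact h3
  have h3 : 1 ≤ ‖p - (1 + d) • u‖ := by
    have := (abs_le.1 (cmp (1 + d) (by linarith))).1
    nlinarith
  have h4 : ‖p - (1 - d) • u‖ ≤ 1 := by
    have := (abs_le.1 (cmp (1 - d) (by linarith))).2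
    nlinarith
  have hcont : ContinuousOn (fun s : ℝ => ‖p - s • u‖) (Set.Icc (1 - d) (1 + d)) :=
    Continuous.continuousOn (by fun_prop)
  obtain ⟨l, ⟨hl1, hl2⟩, hl⟩ := intermediate_value_Icc (by linarith : 1 - d ≤ 1 + d) hcont
    (⟨h4, h3⟩ : (1 : ℝ) ∈ Set.Icc ‖p - (1 - d) • u‖ ‖p - (1 + d) • u‖)
  refine ⟨l, by linarith, by linarith, hl, ?_⟩
  have e3 : p - l • u - y = -(u - z) + (1 - l) • u := by rw [hz]; module
  rw [e3]
  refine (norm_add_le _ _).trans ?_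
  rw [norm_neg, norm_smul, Real.norm_eq_abs]
  have h5 : |1 - l| ≤ d := by rw [abs_le]; constructor <;> linarith
  have h6 : ‖u‖ ≤ 5 / 2 := by
    have h7 : ‖u‖ ≤ ‖u - z‖ + ‖z‖ := by
      have : u = (u - z) + z := by abel
      calc ‖u‖ = ‖(u - z) + z‖ := by rw [← this]
        _ ≤ _ := norm_add_le _ _
    have h8 : ‖z‖ ≤ 2 := by
      rw [hz]
      refine (norm_sub_le _ _).trans ?_
      rw [hp, hy]; norm_num
    rw [← he] at h7
    linarith
  have h9 : |1 - l| * ‖u‖ ≤ d * (5 / 2) := mul_le_mul h5 h6 (norm_nonneg _) hd0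
  have h10 : 4 / c * e = 4 * d := by rw [hd]; ring
  rw [h10]
  have h11 : e ≤ d := by nlinarith
  rw [← he]
  linarith

/-- INF.md section 3.  Sum over `k ≤ m` of `‖z+(k+1)tv‖ + ‖z+(k-1)tv‖ - 2‖z+ktv‖` telescopes to
`(‖z+(m+1)tv‖ - ‖z+mtv‖) - (‖z‖ - ‖z-tv‖) ≤ 2 t ‖v‖`. -/
theorem telescope (z v : X) {t : ℝ} (ht : 0 < t) (m : ℕ) :
    ∃ k : ℕ, k ≤ m ∧ Dq t (z + ((k : ℝ) * t) • v) v ≤ 2 * ‖v‖ / (m + 1) := by
  by_contra hcon
  push Not at hcon
  set s : ℕ → ℝ := fun k => ‖z + ((k : ℝ) * t) • v‖ - ‖z + ((k : ℝ) * t) • v - t • v‖ with hs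
  have hsb : ∀ k, |s k| ≤ t * ‖v‖ := by
    intro k
    have h3 := abs_norm_sub_norm_le (z + ((k : ℝ) * t) • v) (z + ((k : ℝ) * t) • v - t • v)
    have e2 : z + ((k : ℝ) * t) • v - (z + ((k : ℝ) * t) • v - t • v) = t • v := by abel
    rw [e2, norm_smul, Real.norm_of_nonneg ht.le] at h3
    exact h3
  have hterm : ∀ k : ℕ, t * Dq t (z + ((k : ℝ) * t) • v) v = s (k + 1) - s k := by
    intro k
    have e1 : z + (((k + 1 : ℕ) : ℝ) * t) • v = z + ((k : ℝ) * t) • v + t • v := by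
      push_cast; module
    have e2 : z + (((k + 1 : ℕ) : ℝ) * t) • v - t • v = z + ((k : ℝ) * t) • v := by
      rw [e1]; abel
    simp only [hs]
    rw [e2, e1]
    unfold Dq
    field_simp
    ring
  have hsum : ∑ k ∈ Finset.range (m + 1), t * Dq t (z + ((k : ℝ) * t) • v) v
      = s (m + 1) - s 0 := by
    rw [Finset.sum_congr rfl fun k _ => hterm k]
    exact Finset.sum_range_sub s (m + 1)
  have hlow : ∑ _k ∈ Finset.range (m + 1), t * (2 * ‖v‖ / ((m : ℝ) + 1))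
      < ∑ k ∈ Finset.range (m + 1), t * Dq t (z + ((k : ℝ) * t) • v) v := by
    apply Finset.sum_lt_sum_of_nonempty (by simp)
    intro k hk
    exact mul_lt_mul_of_pos_left (hcon k (by have := Finset.mem_range.1 hk; omega)) ht
  rw [hsum, Finset.sum_const, Finset.card_range, nsmul_eq_mul] at hlow
  have h1 := hsb (m + 1)
  have h2 := hsb 0
  rw [abs_le] at h1 h2
  have hm : ((m + 1 : ℕ) : ℝ) * (t * (2 * ‖v‖ / ((m : ℝ) + 1))) = 2 * (t * ‖v‖) := by
    push_cast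
    have : (m : ℝ) + 1 ≠ 0 := by positivity
    field_simp
  rw [hm] at hlow
  linarith [h1.2, h2.1]

end Vale.Agent.P084G
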