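import Vale.Agent.Lib.P084G.A.DBasic
import Vale.Agent.Lib.P084G.A.Reproj

/-! Simultaneous goodness (INF.md section 4): one step. -/

namespace Vale.Agent.P084G

universe u v

/-- `y` is good at scale `s` with error `η` for all tests of the list (a test is a vector of `X` or of `Y`) -/
def GoodL {X : Type u} {Y : Type v} [NormedAddCommGroup X] [NormedSpace ℝ X]
    [NormedAddCommGroup Y] [NormedSpace ℝ Y] (f : X → Y) (p y : X) (s η : ℝ)
    (L : List (X ⊕ Y)) : Prop :=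
  (∀ a : X, Sum.inl a ∈ L → Dq s (p - y) a ≤ η) ∧
    (∀ b : Y, Sum.inr b ∈ L → Dq s (f p - f y) b ≤ η)

/-- one step on the `X` side: INF.md section 4.  `m` with `2M/(m+1) ≤ η/2`, `r = min (c/2) (min (η c/8) (c²/16))`,
`t = r/((m+1)(M+1))`; `telescope` gives `u = z + k t v`, `‖u - z‖ ≤ r`, `D_t(u; v) ≤ η/2`; `reproj` gives
`y1 = p - l u`, `z1 = p - y1 = l u`, `l ≥ 1/2`, `D_{t/2}(z1; v) ≤ D_{l t}(l u; v) = D_t(u; v) ≤ η/2`.
The number `δ` depends only on `M, c, η`. -/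
theorem gen_step (M c η : ℝ) (hM : 0 ≤ M) (hc : 0 < c) (hc1 : c ≤ 1) (hη : 0 < η) (hη1 : η ≤ 1) :
    ∃ δ : ℝ, 0 < δ ∧ ∀ (X : Type u) [NormedAddCommGroup X] [NormedSpace ℝ X] (p y a : X),
      ‖p‖ = 1 → ‖y‖ = 1 → ‖a‖ ≤ M → ‖p + y‖ ≤ 2 - 2 * c →
      ∃ y' : X, ‖y'‖ = 1 ∧ ‖y' - y‖ ≤ min (η / 2) (c / 4) ∧ Dq δ (p - y') a ≤ η / 2 := by
  have _ := hc1
  have _ := hη1
  obtain ⟨m, hm⟩ := exists_nat_gt (4 * M / η)
  have hm1 : (0 : ℝ) < (m : ℝ) + 1 := by positivity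
  have hmη : 2 * M / ((m : ℝ) + 1) ≤ η / 2 := by
    rw [div_lt_iff₀ hη] at hm
    rw [div_le_iff₀ hm1]
    nlinarith
  obtain ⟨r, hr⟩ : ∃ r : ℝ, r = min (c / 2) (min (η * c / 8) (c ^ 2 / 16)) := ⟨_, rfl⟩
  have hr0 : 0 < r := by
    rw [hr]
    refine lt_min (by positivity) (lt_min (by positivity) (by positivity))
  have hr1 : r ≤ c / 2 := by rw [hr]; exact min_le_left _ _
  have hr2 : r ≤ η * c / 8 := by rw [hr]; exact (min_le_right _ _).trans (min_le_left _ _)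
  have hr3 : r ≤ c ^ 2 / 16 := by rw [hr]; exact (min_le_right _ _).trans (min_le_right _ _)
  have hMm : 0 < ((m : ℝ) + 1) * (M + 1) := by positivity
  obtain ⟨t, ht⟩ : ∃ t : ℝ, t = r / (((m : ℝ) + 1) * (M + 1)) := ⟨_, rfl⟩
  have ht0 : 0 < t := by rw [ht]; positivity
  have htr : t * (((m : ℝ) + 1) * (M + 1)) = r := by
    rw [ht, div_mul_cancel₀ _ hMm.ne']
  refine ⟨t / 2, by positivity, ?_⟩
  intro X _ _ p y a hp hy ha hgap
  obtain ⟨k, hk, hD⟩ := telescope (p - y) a ht0 m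
  have hk' : (k : ℝ) ≤ m := by exact_mod_cast hk
  obtain ⟨u, hu⟩ : ∃ u : X, u = (p - y) + ((k : ℝ) * t) • a := ⟨_, rfl⟩
  rw [← hu] at hD
  have hD2 : Dq t u a ≤ η / 2 := by
    refine hD.trans (le_trans ?_ hmη)
    exact div_le_div_of_nonneg_right (by linarith) hm1.le
  have huz : ‖u - (p - y)‖ ≤ r := by
    rw [hu, add_sub_cancel_left, norm_smul, Real.norm_of_nonneg (by positivity)]
    have h1 : (k : ℝ) * t * ‖a‖ ≤ m * t * M :=
      mul_le_mul (mul_le_mul_of_nonneg_right hk' ht0.le) ha (norm_nonneg _) (by positivity)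
    have h2 : (0 : ℝ) ≤ t * (m + M + 1) := by positivity
    nlinarith
  obtain ⟨l, hl1, hl2, hl3, hl4⟩ := reproj hp hy hc hgap (huz.trans hr1)
  have hl0 : 0 < l := by linarith
  refine ⟨p - l • u, hl3, ?_, ?_⟩
  · have h1 : 4 / c * ‖u - (p - y)‖ ≤ 4 / c * r :=
      mul_le_mul_of_nonneg_left huz (by positivity)
    have h2 : ‖p - l • u - y‖ ≤ 4 / c * r := hl4.trans h1
    refine le_min (h2.trans ?_) (h2.trans ?_)
    · have h3 : 4 / c * r ≤ 4 / c * (η * c / 8) := mul_le_mul_of_nonneg_left hr2 (by positivity)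
      have h4 : 4 / c * (η * c / 8) = η / 2 := by field_simp; norm_num
      linarith
    · have h3 : 4 / c * r ≤ 4 / c * (c ^ 2 / 16) := mul_le_mul_of_nonneg_left hr3 (by positivity)
      have h4 : 4 / c * (c ^ 2 / 16) = c / 4 := by field_simp; norm_num
      linarith
  · have h1 : p - (p - l • u) = l • u := by abel
    rw [h1]
    have h2 : Dq (t / 2) (l • u) a ≤ Dq (l * t) (l • u) a :=
      Dq_mono (by positivity) (by nlinarith) _ _
    rw [Dq_smul hl0 ht0] at h2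
    exact h2.trans hD2

end Vale.Agent.P084G
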