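import Vale.Agent.Lib.P084G.A.LinRel
import Vale.Agent.Lib.P084G.A.BLq
import Vale.Agent.Lib.P084G.A.FW

/-! The linearity estimate (INF.md section 6). -/

open Finset

namespace Vale.Agent.P084G

universe u v

/-- **LIN** (INF.md section 6): `blq` at `ξ = K = ∑ c_i (f (x i) - f p)`, `gap_image`, `rel_eps` with
`η' = min (1/600) (η/16)`. -/
theorem lin (l : ℕ) (η : ℝ) (hη : 0 < η) :
    ∃ ρ : ℝ, 0 < ρ ∧ ∀ (X : Type u) [NormedAddCommGroup X] [NormedSpace ℝ X]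
      (Y : Type v) [NormedAddCommGroup Y] [NormedSpace ℝ Y] (f : X → Y) (g : Y → X)
      (p : X) (x : Fin l → X) (c : Fin l → ℝ), SIso f g → ‖p‖ = 1 →
      (∀ i, ‖x i‖ = 1) → (∀ i, ‖x i - p‖ ≤ ρ) →
      ‖∑ i, c i • (f (x i) - f p)‖ ≤ 16 * ‖∑ i, c i • (x i - p)‖ + η * ∑ i, |c i| * ‖x i - p‖ := by
  have hη0 : 0 < min (1 / 600) (η / 16) := lt_min (by norm_num) (by linarith)
  obtain ⟨ρ, hρ, H⟩ := rel_eps.{u, v} l ((1 / 36) ^ 2 / 8) (min (1 / 600) (η / 16)) (by norm_num)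
    (by norm_num) hη0 ((min_le_left _ _).trans (by norm_num))
  refine ⟨ρ, hρ, ?_⟩
  intro X _ _ Y _ _ f g p x c h hp hx hxρ
  have hq : ‖f p‖ = 1 := h.mapf p hp
  obtain ⟨y0, hy0, hgap, hbl⟩ := blq hq (∑ i, c i • (f (x i) - f p))
  have hgy : ‖g y0‖ = 1 := h.mapg y0 hy0
  have hfgy : f (g y0) = y0 := h.fg y0 hy0
  have hgap2 : ‖p + g y0‖ ≤ 2 - 2 * ((1 / 36) ^ 2 / 8) := by
    have h1 := gap_image h.symm hq hy0 (by norm_num : (0 : ℝ) ≤ 1 / 36) hgap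
    rwa [h.gf p hp] at h1
  have hgap3 : ‖f p + f (g y0)‖ ≤ 2 - 2 * ((1 / 36) ^ 2 / 8) := by
    rw [hfgy]
    refine hgap.trans ?_
    norm_num
  obtain ⟨y', hy', hyy, hrel⟩ := H X Y f g p (g y0) x h hp hgy hgap2 hgap3 hx hxρ
  obtain ⟨ψ, hψ⟩ := exists_nrm (p - y')
  obtain ⟨ψ', hψ'⟩ := exists_nrm (f p - f y')
  have h2 : ‖f y' - y0‖ ≤ 1 / 600 := by
    have h3 := h.dist y' (g y0) hy' hgy
    rw [hfgy] at h3
    rw [h3]
    exact hyy.trans (min_le_left _ _)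
  have h4 := hbl (f y') h2 ψ' hψ'
  have h5 : |ψ' (∑ i, c i • (f (x i) - f p))| ≤ ‖∑ i, c i • (x i - p)‖ +
      (η / 16) * ∑ i, |c i| * ‖x i - p‖ := by
    have e1 : ψ' (∑ i, c i • (f (x i) - f p)) = ψ (∑ i, c i • (x i - p)) +
        ∑ i, c i * (ψ' (f (x i) - f p) - ψ (x i - p)) := by
      rw [map_sum, map_sum, ← Finset.sum_add_distrib]
      refine Finset.sum_congr rfl fun i _ => ?_
      rw [map_smul, map_smul, smul_eq_mul, smul_eq_mul]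
      ring
    rw [e1]
    refine (abs_add_le _ _).trans (add_le_add (hψ.abs_le _) ?_)
    refine (Finset.abs_sum_le_sum_abs _ _).trans ?_
    rw [Finset.mul_sum]
    refine Finset.sum_le_sum fun i _ => ?_
    rw [abs_mul]
    calc |c i| * |ψ' (f (x i) - f p) - ψ (x i - p)|
        ≤ |c i| * (min (1 / 600) (η / 16) * ‖x i - p‖) :=
          mul_le_mul_of_nonneg_left (hrel ψ ψ' hψ hψ' i) (abs_nonneg _)
      _ ≤ |c i| * (η / 16 * ‖x i - p‖) :=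
          mul_le_mul_of_nonneg_left (mul_le_mul_of_nonneg_right (min_le_right _ _)
            (norm_nonneg _)) (abs_nonneg _)
      _ = η / 16 * (|c i| * ‖x i - p‖) := by ring
  linarith

end Vale.Agent.P084G
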