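import Vale.Agent.Lib.P084G.A.DBasic

/-! Comparison at a good point (INF.md section 6). -/

open Finset

namespace Vale.Agent.P084G

universe u v

/-- comparison at a good point (INF.md section 6, the heart): if `D_δ(p - y; a) ≤ η`, `D_δ(f p - f y; b) ≤ η` where
`x - p = τ a`, `f x - f p = τ b`, `0 ≤ τ ≤ δ`, then the norming functionals of `p - y` and `f p - f y` take almost the same
value on `x - p` and `f x - f p`.  Uses `‖x - y‖ = ‖f x - f y‖`, `‖p - y‖ = ‖f p - f y‖`, `Nrm.lower`, `Nrm.upper`. -/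
theorem compare_good {X : Type u} [NormedAddCommGroup X] [NormedSpace ℝ X]
    {Y : Type v} [NormedAddCommGroup Y] [NormedSpace ℝ Y] {f : X → Y} {g : Y → X} (h : SIso f g)
    {p y x a : X} {b : Y} {τ δ η : ℝ} (hp : ‖p‖ = 1) (hy : ‖y‖ = 1) (hx : ‖x‖ = 1)
    (hτ : 0 ≤ τ) (hτδ : τ ≤ δ) (hδ : 0 < δ) (ha : x - p = τ • a) (hb : f x - f p = τ • b)
    (hDa : Dq δ (p - y) a ≤ η) (hDb : Dq δ (f p - f y) b ≤ η)
    {ψ : X →L[ℝ] ℝ} {ψ' : Y →L[ℝ] ℝ} (hψ : Nrm ψ (p - y)) (hψ' : Nrm ψ' (f p - f y)) :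
    |ψ' (f x - f p) - ψ (x - p)| ≤ η * τ := by
  have h1 : ‖f x - f y‖ = ‖x - y‖ := h.dist x y hx hy
  have h2 : ‖f p - f y‖ = ‖p - y‖ := h.dist p y hp hy
  rcases hτ.eq_or_lt with h0 | h0
  · rw [ha, hb, ← h0, zero_smul, zero_smul, map_zero, map_zero, sub_zero, abs_zero, mul_zero]
  have e1 : p - y + τ • a = x - y := by rw [← ha]; abel
  have e2 : f p - f y + τ • b = f x - f y := by rw [← hb]; abel
  have l1 := hψ.lower (τ • a)
  have u1 := hψ.upper a h0 hτδ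
  have l2 := hψ'.lower (τ • b)
  have u2 := hψ'.upper b h0 hτδ
  rw [e1] at l1 u1
  rw [e2, h1, h2] at l2 u2
  have m1 := mul_le_mul_of_nonneg_left hDa hτ
  have m2 := mul_le_mul_of_nonneg_left hDb hτ
  rw [ha, hb, abs_le]
  rw [map_smul, smul_eq_mul] at l1 l2 ⊢
  rw [map_smul, smul_eq_mul]
  constructor <;> linarith

end Vale.Agent.P084G
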