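import Vale.Agent.Lib.P084G.A.Gen
import Vale.Agent.Lib.P084G.A.LinCmp

/-! REL-eps (INF.md section 6). -/

open Finset

namespace Vale.Agent.P084G

universe u v

/-- REL-eps (INF.md (6')): around every transversal `y` there is a good `y*` for finitely many points `x i` near `p`. -/
theorem rel_eps (l : ℕ) (c η : ℝ) (hc : 0 < c) (hc1 : c ≤ 1) (hη : 0 < η) (hη1 : η ≤ 1) :
    ∃ ρ : ℝ, 0 < ρ ∧ ∀ (X : Type u) [NormedAddCommGroup X] [NormedSpace ℝ X]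
      (Y : Type v) [NormedAddCommGroup Y] [NormedSpace ℝ Y] (f : X → Y) (g : Y → X)
      (p y : X) (x : Fin l → X), SIso f g → ‖p‖ = 1 → ‖y‖ = 1 →
      ‖p + y‖ ≤ 2 - 2 * c → ‖f p + f y‖ ≤ 2 - 2 * c →
      (∀ i, ‖x i‖ = 1) → (∀ i, ‖x i - p‖ ≤ ρ) →
      ∃ y' : X, ‖y'‖ = 1 ∧ ‖y' - y‖ ≤ η ∧ ∀ (ψ : X →L[ℝ] ℝ) (ψ' : Y →L[ℝ] ℝ),
        Nrm ψ (p - y') → Nrm ψ' (f p - f y') →
        ∀ i, |ψ' (f (x i) - f p) - ψ (x i - p)| ≤ η * ‖x i - p‖ := by
  obtain ⟨δ, hδ, hgen⟩ := gen.{u, v} (l + l) 1 c η zero_le_one hc hc1 hη hη1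
  refine ⟨δ, hδ, ?_⟩
  intro X _ _ Y _ _ f g p y x h hp hy hgap hgap' hx hxp
  have hd : ∀ i, ‖f (x i) - f p‖ = ‖x i - p‖ := fun i => h.dist _ _ (hx i) hp
  set a : Fin l → X := fun i => ‖x i - p‖⁻¹ • (x i - p) with ha
  set b : Fin l → Y := fun i => ‖x i - p‖⁻¹ • (f (x i) - f p) with hb
  have ha1 : ∀ i, ‖a i‖ ≤ 1 := by
    intro i
    rw [ha]
    beta_reduce
    rw [norm_smul, norm_inv, norm_norm]
    exact inv_mul_le_one
  have hb1 : ∀ i, ‖b i‖ ≤ 1 := by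
    intro i
    rw [hb]
    beta_reduce
    rw [norm_smul, norm_inv, norm_norm, hd i]
    exact inv_mul_le_one
  have hax : ∀ i, x i - p = ‖x i - p‖ • a i := by
    intro i
    by_cases h0 : ‖x i - p‖ = 0
    · rw [h0, zero_smul]
      exact norm_eq_zero.1 h0
    · rw [ha]
      beta_reduce
      rw [smul_smul, mul_inv_cancel₀ h0, one_smul]
  have hbx : ∀ i, f (x i) - f p = ‖x i - p‖ • b i := by
    intro i
    by_cases h0 : ‖x i - p‖ = 0
    · rw [h0, zero_smul]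
      exact norm_eq_zero.1 ((hd i).trans h0)
    · rw [hb]
      beta_reduce
      rw [smul_smul, mul_inv_cancel₀ h0, one_smul]
  set L : List (X ⊕ Y) := (List.ofFn fun i => Sum.inl (a i)) ++ (List.ofFn fun i => Sum.inr (b i))
    with hL
  have hlen : L.length ≤ l + l := by
    rw [hL, List.length_append, List.length_ofFn, List.length_ofFn]
  have hLa : ∀ u : X, Sum.inl u ∈ L → ‖u‖ ≤ 1 := by
    intro u hu
    rw [hL, List.mem_append, List.mem_ofFn, List.mem_ofFn] at hu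
    rcases hu with ⟨i, hi⟩ | ⟨i, hi⟩
    · rw [← Sum.inl.inj hi]
      exact ha1 i
    · exact absurd hi (by simp)
  have hLb : ∀ u : Y, Sum.inr u ∈ L → ‖u‖ ≤ 1 := by
    intro u hu
    rw [hL, List.mem_append, List.mem_ofFn, List.mem_ofFn] at hu
    rcases hu with ⟨i, hi⟩ | ⟨i, hi⟩
    · exact absurd hi (by simp)
    · rw [← Sum.inr.inj hi]
      exact hb1 i
  obtain ⟨y', hy', hyy, hG1, hG2⟩ := hgen X Y f g p y L h hp hy hgap hgap' hlen hLa hLb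
  refine ⟨y', hy', hyy, ?_⟩
  intro ψ ψ' hψ hψ' i
  refine compare_good h hp hy' (hx i) (norm_nonneg _) (hxp i) hδ (hax i) (hbx i) ?_ ?_ hψ hψ'
  · apply hG1
    rw [hL, List.mem_append, List.mem_ofFn]
    exact Or.inl ⟨i, rfl⟩
  · apply hG2
    rw [hL, List.mem_append, List.mem_ofFn, List.mem_ofFn]
    exact Or.inr ⟨i, rfl⟩

end Vale.Agent.P084G
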