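import Vale.Agent.Lib.P084G.A.Cur

/-! The tangent cone of a non-smooth point (INF.md section 8 (i), (v)). -/

open Filter Topology

namespace Vale.Agent.P084G

variable {X Y : Type*} [NormedAddCommGroup X] [NormedSpace ℝ X] [NormedAddCommGroup Y]
  [NormedSpace ℝ Y]

private theorem NSCone_shift {p : X} (hp : ‖p‖ = 1) (u : X) (a : ℝ) (ha : nd p u = a) :
    nd p (u - a • p) = 0 := by
  rw [sub_eq_add_neg, ← neg_smul, nd_add_smul_self hp, ha, add_neg_cancel]

private theorem NSCone_sum {p : X} (hp : ‖p‖ = 1) (hns : ¬ Smo p) :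
    ∃ (c : ℝ) (v w : X), 0 < c ∧ nd p v = 0 ∧ nd p w = 0 ∧ v + w = -(c • p) := by
  unfold Smo at hns
  push Not at hns
  obtain ⟨u, hu⟩ := hns
  have h0 : 0 ≤ nd p u + nd p (-u) := nd_neg_add_nonneg p u
  have hc : 0 < nd p u + nd p (-u) := lt_of_le_of_ne h0 (Ne.symm hu)
  refine ⟨nd p u + nd p (-u), u - nd p u • p, -u - nd p (-u) • p, hc,
    NSCone_shift hp _ _ rfl, NSCone_shift hp _ _ rfl, ?_⟩
  rw [add_smul]
  abel

/-- (i) the tangent cone of a non-smooth point spans: with `c = nd p u + nd p (-u) > 0`,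
`(u - nd p u • p) + (-u - nd p (-u) • p) = - c • p`. -/
theorem span_top_of_not_smo {p : X} (hp : ‖p‖ = 1) (hns : ¬ Smo p) :
    Submodule.span ℝ {v : X | nd p v = 0} = ⊤ := by
  obtain ⟨c, v, w, hc, hv, hw, hvw⟩ := NSCone_sum hp hns
  have hpm : p ∈ Submodule.span ℝ {v : X | nd p v = 0} := by
    have h1 : v + w ∈ Submodule.span ℝ {v : X | nd p v = 0} :=
      Submodule.add_mem _ (Submodule.subset_span hv) (Submodule.subset_span hw)
    have h2 : (-c⁻¹) • (v + w) = p := by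
      rw [hvw, neg_smul, smul_neg, neg_neg, smul_smul, inv_mul_cancel₀ hc.ne', one_smul]
    have h4 := Submodule.smul_mem (Submodule.span ℝ {v : X | nd p v = 0}) (-c⁻¹) h1
    rwa [h2] at h4
  rw [eq_top_iff]
  intro x _
  have h3 : x = (x - nd p x • p) + nd p x • p := by abel
  rw [h3]
  exact Submodule.add_mem _ (Submodule.subset_span (NSCone_shift hp _ _ rfl))
    (Submodule.smul_mem _ _ hpm)

/-- two vectors of the tangent cone whose sum is `-c p`, `c > 0` -/
theorem exists_sum_neg {p : X} (hp : ‖p‖ = 1) (hns : ¬ Smo p) :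
    ∃ (c : ℝ) (v w : X), 0 < c ∧ nd p v = 0 ∧ nd p w = 0 ∧ v + w = -(c • p) :=
  NSCone_sum hp hns

/-- (v) if `nd p u ≥ 0` and `nd p (-u) ≥ 0` then `u = v1 - v2` with both in the tangent cone
(intermediate value theorem for `θ(s) = nd p ((1-s) u) - nd p (-s u)` on `[0,1]`). -/
theorem exists_diff {p u : X} (hp : ‖p‖ = 1) (h1 : 0 ≤ nd p u) (h2 : 0 ≤ nd p (-u)) :
    ∃ v1 v2 : X, nd p v1 = 0 ∧ nd p v2 = 0 ∧ u = v1 - v2 := by
  have hz : nd p 0 = 0 := by
    have h := nd_smul p (0 : X) (le_refl (0 : ℝ))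
    rwa [zero_smul, zero_mul] at h
  set θ : ℝ → ℝ := fun s => nd p ((1 - s) • u) - nd p (-(s • u)) with hθ
  have hcont : Continuous θ := by
    have hc := continuous_nd p
    refine (hc.comp ?_).sub (hc.comp ?_)
    · fun_prop
    · fun_prop
  have h0 : 0 ≤ θ 0 := by
    simp only [hθ, sub_zero, one_smul, zero_smul, neg_zero, hz]
    exact h1
  have h1' : θ 1 ≤ 0 := by
    simp only [hθ, sub_self, one_smul, zero_smul, hz, zero_sub]
    linarith
  obtain ⟨s, _, hs⟩ := intermediate_value_Icc' (zero_le_one' ℝ) hcont.continuousOn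
    (⟨h1', h0⟩ : (0 : ℝ) ∈ Set.Icc (θ 1) (θ 0))
  have hs' : nd p ((1 - s) • u) = nd p (-(s • u)) := sub_eq_zero.1 hs
  refine ⟨(1 - s) • u - nd p (-(s • u)) • p, -(s • u) - nd p (-(s • u)) • p,
    NSCone_shift hp _ _ hs', NSCone_shift hp _ _ rfl, ?_⟩
  rw [sub_smul, one_smul]
  abel

end Vale.Agent.P084G
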