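import Vale.Agent.Lib.P084G.A.Deriv
import Vale.Agent.Lib.P084G.A.NSCone

/-! INF.md section 8 (ii), (iii). -/

open Filter Topology

namespace Vale.Agent.P084G

variable {X Y : Type*} [NormedAddCommGroup X] [NormedSpace ℝ X] [NormedAddCommGroup Y]
  [NormedSpace ℝ Y]

/-- (ii) the image of a non-smooth point is non-smooth -/
theorem not_smo_image [CompleteSpace X] [CompleteSpace Y] {f : X → Y} {g : Y → X} (h : SIso f g)
    {p : X} (hp : ‖p‖ = 1) (hns : ¬ Smo p) : ¬ Smo (f p) := by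
  intro hs
  obtain ⟨G, hG, -⟩ := exists_deriv h hp
  have hq : ‖f p‖ = 1 := h.mapf p hp
  obtain ⟨G', hG', -⟩ := exists_deriv h.symm hq
  have hGc : ∀ v, nd p v = 0 → nd (f p) (G v) = 0 := fun v hv => (hG v hv).nd_eq_zero h hp hv
  have hGG : ∀ v, nd p v = 0 → G' (G v) = v := by
    intro v hv
    have h1 := hG' (G v) (hGc v hv)
    have h2 := (hG v hv).inv h hp hv
    exact tendsto_nhds_unique h1 h2
  obtain ⟨c, v, w, hc, hv, hw, hvw⟩ := exists_sum_neg hp hns
  have h1 : nd (f p) (G v + G w) = 0 := hs.add (hGc v hv) (hGc w hw)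
  have h2 : nd (f p) ((-1 : ℝ) • (G v + G w)) = 0 := hs.smul h1 (-1)
  have h3 : nd (g (f p)) (G' ((-1 : ℝ) • (G v + G w))) = 0 :=
    (hG' _ h2).nd_eq_zero h.symm hq h2
  rw [h.gf p hp, map_smul, map_add, hGG v hv, hGG w hw, hvw, smul_neg, neg_smul, one_smul, neg_neg,
    nd_self hp] at h3
  exact absurd h3 hc.ne'

/-- linear bijection: the linear map of `exists_deriv` at a non-smooth point has the one for `g` as inverse, and both are
bounded; (iii) it maps inner directions to inner directions. -/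
theorem inner_image {f : X → Y} {g : Y → X} (h : SIso f g) {p : X} (hp : ‖p‖ = 1)
    (hns : ¬ Smo p) (G : X →ₗ[ℝ] Y) (hG : ∀ v, nd p v = 0 → HasD f p v (G v))
    (G' : Y →ₗ[ℝ] X) (hG' : ∀ w, nd (f p) w = 0 → HasD g (f p) w (G' w))
    (hinv : ∀ u, G' (G u) = u) (hinv' : ∀ w, G (G' w) = w)
    (hc : Continuous G) {u : X} (hu : nd p u < 0) : nd (f p) (G u) < 0 := by
  have hq : ‖f p‖ = 1 := h.mapf p hp
  have hGc : ∀ v, nd p v = 0 → nd (f p) (G v) = 0 := fun v hv => (hG v hv).nd_eq_zero h hp hv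
  have hback : ∀ v, nd (f p) (G v) = 0 → nd p v = 0 := by
    intro v hv
    have h3 : nd (g (f p)) (G' (G v)) = 0 := (hG' _ hv).nd_eq_zero h.symm hq hv
    rwa [h.gf p hp, hinv] at h3
  have hnegp : nd p (-p) = -1 := by
    have := nd_self hp (-1)
    rwa [neg_smul, one_smul] at this
  have hbase : nd (f p) (G (-p)) < 0 := by
    obtain ⟨c, v, w, hc0, hv, hw, hvw⟩ := exists_sum_neg hp hns
    have h1 : nd (f p) (G v + G w) ≤ 0 := by
      have := nd_add_le (f p) (G v) (G w)
      rwa [hGc v hv, hGc w hw, add_zero] at this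
    have h2 : G v + G w = c • G (-p) := by
      rw [← map_add, hvw, ← map_smul, smul_neg]
    rw [h2, nd_smul _ _ hc0.le] at h1
    have h3 : nd (f p) (G (-p)) ≤ 0 := by
      by_contra hcon
      push Not at hcon
      exact absurd h1 (not_le.2 (mul_pos hc0 hcon))
    refine lt_of_le_of_ne h3 fun h4 => ?_
    have h5 := hback _ h4
    rw [hnegp] at h5
    norm_num at h5
  by_contra hcon
  push Not at hcon
  let θ : ℝ → ℝ := fun s => nd (f p) (G ((1 - s) • u + s • (-p)))
  have hθ : Continuous θ := by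
    refine (continuous_nd (f p)).comp (hc.comp ?_)
    fun_prop
  have h0 : θ 0 = nd (f p) (G u) := by
    simp only [θ, sub_zero, one_smul, zero_smul, add_zero]
  have h1 : θ 1 = nd (f p) (G (-p)) := by
    simp only [θ, sub_self, one_smul, zero_smul, zero_add]
  have hmem : (0 : ℝ) ∈ Set.Icc (θ 1) (θ 0) := by
    rw [h0, h1]
    exact ⟨hbase.le, hcon⟩
  obtain ⟨s, hs, hs0⟩ := intermediate_value_Icc' (zero_le_one : (0 : ℝ) ≤ 1) hθ.continuousOn hmem
  have h2 := hback _ hs0
  have h3 := nd_add_le p ((1 - s) • u) (s • (-p))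
  rw [h2, nd_smul _ _ (sub_nonneg.2 hs.2), nd_smul _ _ hs.1, hnegp] at h3
  rcases hs.1.eq_or_lt with h4 | h4
  · rw [← h4] at h3
    linarith
  · have h5 : (1 - s) * nd p u ≤ 0 := mul_nonpos_of_nonneg_of_nonpos (sub_nonneg.2 hs.2) hu.le
    linarith

end Vale.Agent.P084G
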