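import Vale.Agent.Lib.P084G.A.Deriv

/-! INF.md section 8 (iv). -/

open Filter Topology

namespace Vale.Agent.P084G

variable {X Y : Type*} [NormedAddCommGroup X] [NormedSpace ℝ X] [NormedAddCommGroup Y]
  [NormedSpace ℝ Y]

theorem nsinner_point {p u : X} (hp : ‖p‖ = 1) (hu : nd p u < 0) :
    ∃ μ : ℝ, 0 < μ ∧ ‖p + μ • u‖ = 1 ∧ ‖p + (p + μ • u)‖ < 2 := by
  have hev : ∀ᶠ t : ℝ in 𝓝[>] 0, (‖p + t • u‖ - ‖p‖) / t < 0 :=
    (nd_tendsto p u).eventually (gt_mem_nhds hu)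
  have hsmall : ∀ δ : ℝ, 0 < δ → ∃ t : ℝ, 0 < t ∧ t ≤ δ ∧ ‖p + t • u‖ < 1 := by
    intro δ hδ
    have h1 : ∀ᶠ t : ℝ in 𝓝[>] 0, t ∈ Set.Ioc 0 δ := Ioc_mem_nhdsGT hδ
    obtain ⟨t, ht1, ht2⟩ := (hev.and h1).exists
    refine ⟨t, ht2.1, ht2.2, ?_⟩
    rw [div_neg_iff] at ht1
    rcases ht1 with h | h
    · exact absurd h.2 (not_lt.2 ht2.1.le)
    · linarith [h.1]
  obtain ⟨t0, ht0, -, hlt0⟩ := hsmall 1 one_pos
  have hu0 : u ≠ 0 := by
    rintro rfl
    rw [smul_zero, add_zero, hp] at hlt0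
    exact lt_irrefl _ hlt0
  have hun : 0 < ‖u‖ := norm_pos_iff.2 hu0
  set T : ℝ := 2 / ‖u‖ + t0 with hT
  have hTpos : 0 < T := by positivity
  have hT1 : 1 ≤ ‖p + T • u‖ := by
    have h1 : ‖T • u‖ ≤ ‖p + T • u‖ + ‖p‖ := by
      have h2 : T • u = (p + T • u) - p := by abel
      calc ‖T • u‖ = ‖(p + T • u) - p‖ := by rw [← h2]
        _ ≤ _ := norm_sub_le _ _
    rw [norm_smul, Real.norm_of_nonneg hTpos.le, hp, hT, add_mul, div_mul_cancel₀ _ hun.ne'] at h1
    have h3 : 0 < t0 * ‖u‖ := by positivity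
    linarith
  have hcont : ContinuousOn (fun t : ℝ => ‖p + t • u‖) (Set.Icc t0 T) := by fun_prop
  have hle : t0 ≤ T := by
    rw [hT]
    have : 0 < 2 / ‖u‖ := by positivity
    linarith
  obtain ⟨μ, hμ, hμ1⟩ := intermediate_value_Icc hle hcont ⟨hlt0.le, hT1⟩
  have hμ0 : 0 < μ := ht0.trans_le hμ.1
  have hμ1' : ‖p + μ • u‖ = 1 := hμ1
  refine ⟨μ, hμ0, hμ1', ?_⟩
  obtain ⟨t1, ht1, ht1', hlt1⟩ := hsmall (μ / 2) (by positivity)
  set l : ℝ := (μ / 2 - t1) / (μ - t1) with hl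
  have hd : 0 < μ - t1 := by linarith
  have hl0 : 0 ≤ l := div_nonneg (by linarith) hd.le
  have hl1 : l < 1 := by
    rw [hl, div_lt_one hd]
    linarith
  have hl2 : (1 - l) * t1 + l * μ = μ / 2 := by
    rw [hl]
    field_simp
    ring
  have h3 : p + (p + μ • u) = (2 : ℝ) • ((1 - l) • (p + t1 • u) + l • (p + μ • u)) := by
    have h4 : (1 - l) • (p + t1 • u) + l • (p + μ • u) =
        p + ((1 - l) * t1 + l * μ) • u := by module
    rw [h4, hl2]
    module
  rw [h3, norm_smul, Real.norm_of_nonneg (by norm_num : (0 : ℝ) ≤ 2)]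
  have h5 : ‖(1 - l) • (p + t1 • u) + l • (p + μ • u)‖ < 1 := by
    calc ‖(1 - l) • (p + t1 • u) + l • (p + μ • u)‖
        ≤ ‖(1 - l) • (p + t1 • u)‖ + ‖l • (p + μ • u)‖ := norm_add_le _ _
      _ = (1 - l) * ‖p + t1 • u‖ + l * 1 := by
        rw [norm_smul, norm_smul, Real.norm_of_nonneg (by linarith : (0 : ℝ) ≤ 1 - l),
          Real.norm_of_nonneg hl0, hμ1']
      _ < (1 - l) * 1 + l * 1 := by
        have h6 : (1 - l) * ‖p + t1 • u‖ < (1 - l) * 1 :=
          mul_lt_mul_of_pos_left hlt1 (by linarith)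
        linarith
      _ = 1 := by ring
  linarith

/-- (iv) lower bound at inner directions.  `G` linear on `X`, derivative of `f` on the cone, the cone spans.  There is
`μ > 0` with `y = p + μ u` on the sphere and `‖p + y‖ < 2`; write `u` as a finite combination of vectors of the cone
(`mem_span_fin`) and use `rel_lim` with small `η`. -/
theorem norm_le_of_inner {f : X → Y} {g : Y → X} (h : SIso f g) {p : X} (hp : ‖p‖ = 1)
    (G : X →ₗ[ℝ] Y) (hG : ∀ v, nd p v = 0 → HasD f p v (G v))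
    {u : X} (hspan : u ∈ Submodule.span ℝ {v : X | nd p v = 0}) (hu : nd p u < 0) :
    ‖u‖ ≤ ‖G u‖ := by
  obtain ⟨μ, hμ, hy, hpy⟩ := nsinner_point hp hu
  obtain ⟨n, c, v, hv, huv⟩ := mem_span_fin _ hspan
  have hGu : G u = ∑ i, c i • G (v i) := by
    rw [huv, map_sum]
    exact Finset.sum_congr rfl fun i _ => map_smul G _ _
  set C : ℝ := ∑ i, |c i| with hC
  have hC0 : 0 ≤ C := Finset.sum_nonneg fun i _ => abs_nonneg _
  -- the estimate for every `η`
  have key : ∀ η : ℝ, 0 < η → ‖u‖ ≤ ‖G u‖ + (2 / μ + C) * η := by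
    intro η hη
    obtain ⟨y', hy', hyy, hrel⟩ := rel_lim h hp hy hpy v (fun i => G (v i)) hv
      (fun i => hG (v i) (hv i)) hη
    obtain ⟨ψ, hψ⟩ := exists_nrm (p - y')
    obtain ⟨ψ', hψ'⟩ := exists_nrm (f p - f y')
    have hr := hrel ψ ψ' hψ hψ'
    -- functionals at `u`
    have h1 : |ψ' (G u) - ψ u| ≤ C * η := by
      have h2 : ψ' (G u) - ψ u = ∑ i, c i * (ψ' (G (v i)) - ψ (v i)) := by
        rw [hGu]
        conv_lhs => rw [huv]
        rw [map_sum, map_sum, ← Finset.sum_sub_distrib]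
        refine Finset.sum_congr rfl fun i _ => ?_
        rw [map_smul, map_smul, smul_eq_mul, smul_eq_mul]
        ring
      rw [h2, hC, Finset.sum_mul]
      refine (Finset.abs_sum_le_sum_abs _ _).trans (Finset.sum_le_sum fun i _ => ?_)
      rw [abs_mul]
      exact mul_le_mul_of_nonneg_left (hr i) (abs_nonneg _)
    have h3 : ψ (p - y') = ‖p - y'‖ := hψ.2
    have h4 : ‖μ • u‖ ≤ ‖p - y'‖ + η := by
      have h5 : μ • u = (y' - p) + ((p + μ • u) - y') := by abel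
      calc ‖μ • u‖ = ‖(y' - p) + ((p + μ • u) - y')‖ := by rw [← h5]
        _ ≤ ‖y' - p‖ + ‖(p + μ • u) - y'‖ := norm_add_le _ _
        _ ≤ ‖p - y'‖ + η := by
          rw [norm_sub_rev y' p, norm_sub_rev (p + μ • u) y']
          linarith
    have h6 : ψ (p - y') ≤ -(μ * ψ u) + η := by
      have h7 : p - y' = -(μ • u) + ((p + μ • u) - y') := by abel
      rw [h7, map_add, map_neg, map_smul, smul_eq_mul]
      have h8 := hψ.le ((p + μ • u) - y')
      rw [norm_sub_rev] at h8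
      linarith
    rw [norm_smul, Real.norm_of_nonneg hμ.le] at h4
    have h9 : -ψ u ≥ ‖u‖ - 2 / μ * η := by
      have h10 : μ * ‖u‖ ≤ μ * (-ψ u + 2 / μ * η) := by
        have h11 : μ * (-ψ u + 2 / μ * η) = -(μ * ψ u) + 2 * η := by
          field_simp
        rw [h11]
        linarith
      have h12 := le_of_mul_le_mul_left h10 hμ
      linarith
    have h13 : -ψ' (G u) ≤ ‖G u‖ := by
      have h14 := hψ'.le (-(G u))
      rwa [map_neg, norm_neg] at h14
    have h15 := (abs_le.1 h1).2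
    linarith
  refine le_of_forall_pos_le_add fun ε hε => ?_
  have hK : 0 < 2 / μ + C := by positivity
  have h1 := key (ε / (2 / μ + C)) (by positivity)
  rwa [mul_div_cancel₀ _ hK.ne'] at h1

end Vale.Agent.P084G
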