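import Vale.Agent.Lib.P084G.A.WAux

/-! Lemma (W) of helper41. -/

open Filter Topology

namespace Vale.Agent.P084G

variable {X : Type*} [NormedAddCommGroup X] [NormedSpace ℝ X]

private theorem wl_conv (z u : X) :
    ConvexOn ℝ (Set.Icc (0 : ℝ) 1) (fun s : ℝ => ‖z + s • u‖) := by
  refine ⟨convex_Icc 0 1, fun s _ t _ a b ha hb hab => ?_⟩
  have h1 : z + (a • s + b • t) • u = a • (z + s • u) + b • (z + t • u) := by
    have h2 : z = (a + b) • z := by rw [hab, one_smul]
    conv_lhs => rw [h2]
    simp only [smul_eq_mul, add_smul, mul_smul, smul_add]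
    abel
  change ‖z + (a • s + b • t) • u‖ ≤ a • ‖z + s • u‖ + b • ‖z + t • u‖
  rw [h1, smul_eq_mul, smul_eq_mul]
  refine (norm_add_le _ _).trans ?_
  rw [norm_smul, norm_smul, Real.norm_of_nonneg ha, Real.norm_of_nonneg hb]

private theorem wl_conv_g {g g' : X → X} (h : SIso g g') {p u : X}
    (hseg : ∀ s : ℝ, 0 ≤ s → s ≤ 1 → ‖p + s • u‖ = 1) {a : X} (ha : ‖a‖ = 1) :
    ConvexOn ℝ (Set.Icc (0 : ℝ) 1) (fun s : ℝ => ‖g (p + s • u) - a‖) := by
  refine (wl_conv (p - g' a) u).congr fun s hs => ?_
  have h1 := h.dist (p + s • u) (g' a) (hseg s hs.1 hs.2) (h.mapg a ha)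
  rw [h.fg a ha] at h1
  change ‖p - g' a + s • u‖ = ‖g (p + s • u) - a‖
  rw [h1]
  congr 1
  abel

/-- **(W).** `g` an isometry of the sphere onto itself, `p` and `g p` have a common norming functional, and
`g (p + s u) = g p + s u + o(s)` for every segment `[p, p+u]` of the sphere.  Then `g p = p`.
PROOF. `x n = g^[n] p`, `d = ‖x 1 - x 0‖`.  Induction on `n ≥ 1`: (a) `x 0, ..., x n` have a common norming functional `ψ`;
(b) `‖x n - x 0‖ = n d`.  Step: `u = x n - x 0`; `[x 0, x 0 + u]` is in the sphere by (a); `c s = g (x 0 + s u)`,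
`c 0 = x 1`, `c 1 = x (n+1)`; for `a` in the sphere `‖c s - a‖ = ‖x 0 + s u - g⁻¹ a‖` is convex in `s`.
With `a = x 0`: `χ` norming `x n - x 0` satisfies `χ (x 1 - x 0) = d` (all `n` steps have length `d`), `convex_slope` gives
`‖x (n+1) - x 0‖ ≥ d + n d`.  With `a = -(x 0 + ... + x n)/(n+1)`, `χ = ψ`: `‖x (n+1) - a‖ ≥ 2`, so `x (n+1)` and the mean
have a common norming functional, which norms each `x i`.  Since `‖x n - x 0‖ ≤ 2`, `d = 0`. -/
theorem w_lemma {g g' : X → X} (h : SIso g g') {p : X} (hp : ‖p‖ = 1) (hpg : ‖p + g p‖ = 2)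
    (hD : ∀ u : X, (∀ s : ℝ, 0 ≤ s → s ≤ 1 → ‖p + s • u‖ = 1) → HasD g p u u) : g p = p := by
  set x : ℕ → X := fun n => g^[n] p with hxdef
  have hx0 : x 0 = p := rfl
  have hxs : ∀ n, x (n + 1) = g (x n) := fun n => Function.iterate_succ_apply' g n p
  have hxn : ∀ n, ‖x n‖ = 1 := by
    intro n
    induction n with
    | zero => exact hp
    | succ n ih => rw [hxs]; exact h.mapf _ ih
  have hx1 : x 1 = g p := hxs 0
  set d : ℝ := ‖x 1 - x 0‖ with hd
  have hstep : ∀ n, ‖x (n + 1) - x n‖ = d := by
    intro n
    induction n with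
    | zero => rfl
    | succ n ih => rw [hxs (n + 1), hxs n, h.dist _ _ (by rw [← hxs]; exact hxn _) (hxn n),
        ← hxs, ih]
  have hub : ∀ n : ℕ, ‖x n - x 0‖ ≤ n * d := by
    intro n
    induction n with
    | zero => simp
    | succ n ih =>
      have h1 : x (n + 1) - x 0 = (x (n + 1) - x n) + (x n - x 0) := by abel
      rw [h1]
      refine (norm_add_le _ _).trans ?_
      rw [hstep]
      push_cast
      linarith
  -- the induction
  have key : ∀ n : ℕ, (∃ ψ : X →L[ℝ] ℝ, ‖ψ‖ ≤ 1 ∧ ∀ i ≤ n + 1, ψ (x i) = 1) ∧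
      ‖x (n + 1) - x 0‖ = (n + 1 : ℕ) * d := by
    intro n
    induction n with
    | zero =>
      obtain ⟨ψ, h1, h2⟩ := exists_common_nrm hp (h.mapf p hp) hpg
      refine ⟨⟨ψ, h1.1, fun i hi => ?_⟩, by simp [hd]⟩
      have hi' : i = 0 ∨ i = 1 := by omega
      rcases hi' with rfl | rfl
      · rw [hx0, h1.2, hp]
      · rw [hx1, h2.2, h.mapf p hp]
    | succ n ih =>
      obtain ⟨⟨ψ, hψ, hψx⟩, hn⟩ := ih
      set u : X := x (n + 1) - x 0 with hu
      -- the segment
      have hψle : ∀ v : X, ψ v ≤ ‖v‖ := fun v =>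
        (le_abs_self _).trans ((ψ.le_opNorm v).trans (mul_le_of_le_one_left (norm_nonneg v) hψ))
      have hψu : ψ u = 0 := by
        rw [hu, map_sub, hψx _ le_rfl, hψx 0 (Nat.zero_le _), sub_self]
      have hseg : ∀ s : ℝ, 0 ≤ s → s ≤ 1 → ‖p + s • u‖ = 1 := by
        intro s hs0 hs1
        apply le_antisymm
        · have h1 : p + s • u = (1 - s) • x 0 + s • x (n + 1) := by
            rw [hu, hx0, smul_sub, sub_smul, one_smul]
            abel
          rw [h1]
          refine (norm_add_le _ _).trans ?_
          rw [norm_smul, norm_smul, hxn, hxn, Real.norm_of_nonneg hs0,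
            Real.norm_of_nonneg (by linarith)]
          linarith
        · have h1 := hψle (p + s • u)
          rw [map_add, map_smul, hψu, smul_zero, add_zero] at h1
          have h2 := hψx 0 (Nat.zero_le _)
          rw [hx0] at h2
          linarith
      obtain ⟨_, htend⟩ := hasD_segment hp hseg (hD u hseg)
      have htend' : Tendsto (fun s : ℝ => s⁻¹ • ((fun s : ℝ => g (p + s • u)) s - x 1))
          (𝓝[>] 0) (𝓝 u) := by
        rw [hx1]
        exact htend
      have hc0 : (fun s : ℝ => g (p + s • u)) 0 = x 1 := by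
        simp only [zero_smul, add_zero]
        exact hx1.symm
      have hc1 : g (p + (1 : ℝ) • u) = x (n + 1 + 1) := by
        rw [one_smul]
        rw [hxs (n + 1), hu, hx0]
        congr 1
        abel
      refine ⟨?_, ?_⟩
      · -- (a)
        set m : X := ((n + 2 : ℕ) : ℝ)⁻¹ • ∑ i ∈ Finset.range (n + 2), x i with hm
        have hn2 : ((n + 2 : ℕ) : ℝ) ≠ 0 := by positivity
        have hψm : ψ m = 1 := by
          rw [hm, map_smul, map_sum, Finset.sum_congr rfl (g := fun _ => (1 : ℝ))
            fun i hi => hψx i (by have := Finset.mem_range.1 hi; omega), Finset.sum_const,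
            Finset.card_range, nsmul_eq_mul, mul_one, smul_eq_mul, inv_mul_cancel₀ hn2]
        have hmn : ‖m‖ = 1 := by
          apply le_antisymm
          · rw [hm, norm_smul, norm_inv, Real.norm_natCast]
            have h1 : ‖∑ i ∈ Finset.range (n + 2), x i‖ ≤ ((n + 2 : ℕ) : ℝ) := by
              refine (norm_sum_le _ _).trans ?_
              rw [Finset.sum_congr rfl (g := fun _ => (1 : ℝ)) fun i _ => hxn i, Finset.sum_const,
                Finset.card_range, nsmul_eq_mul, mul_one]
            rw [inv_mul_le_iff₀ (by positivity), mul_one]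
            exact h1
          · have h1 := hψle m
            rwa [hψm] at h1
        have ha : ‖-m‖ = 1 := by rw [norm_neg, hmn]
        have hx1m : ‖x 1 - -m‖ = 2 := by
          apply le_antisymm
          · refine (norm_sub_le _ _).trans ?_
            rw [hxn, ha]
            norm_num
          · have h1 := hψle (x 1 - -m)
            rw [map_sub, map_neg, hψm, hψx 1 (by omega)] at h1
            linarith
        have hχ : Nrm ψ (x 1 - -m) := by
          refine ⟨hψ, ?_⟩
          rw [hx1m, map_sub, map_neg, hψm, hψx 1 (by omega)]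
          norm_num
        have h1 := convex_slope hc0 htend' (wl_conv_g h hseg ha) hχ
        rw [hc1, hx1m, hψu, add_zero, sub_neg_eq_add] at h1
        have h2 : ‖x (n + 1 + 1) + m‖ = 2 := by
          apply le_antisymm
          · refine (norm_add_le _ _).trans ?_
            rw [hxn, hmn]
            norm_num
          · exact h1
        obtain ⟨φ, h3, h4⟩ := exists_common_nrm (hxn (n + 1 + 1)) hmn h2
        have hφle : ∀ v : X, φ v ≤ ‖v‖ := fun v =>
          (le_abs_self _).trans ((φ.le_opNorm v).trans
            (mul_le_of_le_one_left (norm_nonneg v) h3.1))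
        refine ⟨φ, h3.1, fun i hi => ?_⟩
        rcases Nat.lt_or_ge i (n + 2) with hi' | hi'
        · have h5 : φ m = 1 := by rw [h4.2, hmn]
          rw [hm, map_smul, map_sum, smul_eq_mul, inv_mul_eq_iff_eq_mul₀ hn2, mul_one] at h5
          have h6 : ∑ i ∈ Finset.range (n + 2), (1 - φ (x i)) = 0 := by
            rw [Finset.sum_sub_distrib, h5, Finset.sum_const, Finset.card_range, nsmul_eq_mul,
              mul_one, sub_self]
          have h7 : ∀ i ∈ Finset.range (n + 2), 0 ≤ 1 - φ (x i) := by
            intro i _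
            have h8 := hφle (x i)
            rw [hxn] at h8
            linarith
          have h9 := (Finset.sum_eq_zero_iff_of_nonneg h7).1 h6 i (Finset.mem_range.2 hi')
          linarith
        · have h5 : i = n + 1 + 1 := by omega
          rw [h5, h3.2, hxn]
      · -- (b)
        apply le_antisymm (hub _)
        obtain ⟨χ, hχ⟩ := exists_nrm (x (n + 1) - x 0)
        have hχ1 : χ (x 1 - x 0) = d := by
          apply le_antisymm
          · exact hχ.le _
          · -- the other steps
            have h1 : ∀ k : ℕ, χ (x (k + 1) - x 1) ≤ k * d := by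
              intro k
              induction k with
              | zero => simp
              | succ k ih =>
                have h2 : x (k + 1 + 1) - x 1 = (x (k + 1 + 1) - x (k + 1)) + (x (k + 1) - x 1) := by
                  abel
                rw [h2, map_add]
                have h3 := hχ.le (x (k + 1 + 1) - x (k + 1))
                rw [hstep] at h3
                push_cast
                linarith
            have h2 := h1 n
            have h3 : x (n + 1) - x 0 = (x (n + 1) - x 1) + (x 1 - x 0) := by abel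
            have h4 := hχ.2
            rw [hn] at h4
            rw [h3, map_add] at h4
            push_cast at h4
            linarith
        have hχ' : Nrm χ (x 1 - x 0) := ⟨hχ.1, by rw [hχ1]⟩
        have h1 := convex_slope hc0 htend' (wl_conv_g h hseg (hxn 0)) hχ'
        rw [hc1] at h1
        have h2 : χ u = (n + 1 : ℕ) * d := by rw [← hn]; exact hχ.2
        rw [h2, ← hd] at h1
        push_cast at h1 ⊢
        linarith
  -- conclusion
  have hd0 : d = 0 := by
    have hdn : 0 ≤ d := norm_nonneg _
    by_contra hne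
    have hpos : 0 < d := lt_of_le_of_ne hdn (Ne.symm hne)
    obtain ⟨n, hn⟩ := exists_nat_gt (2 / d)
    have h1 := (key n).2
    have h2 : ‖x (n + 1) - x 0‖ ≤ 2 := by
      refine (norm_sub_le _ _).trans ?_
      rw [hxn, hxn]
      norm_num
    rw [h1] at h2
    rw [div_lt_iff₀ hpos] at hn
    push_cast at h2
    linarith
  have h1 : x 1 - x 0 = 0 := norm_eq_zero.1 hd0
  rw [hx1, hx0] at h1
  exact sub_eq_zero.1 h1

end Vale.Agent.P084G
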