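import Vale.Agent.Lib.P084G.A.NonSmooth
import Vale.Agent.Lib.P084G.A.WLemma

/-! Combination of section 8 and (W). -/

open Filter Topology

namespace Vale.Agent.P084G

variable {X Y : Type*} [NormedAddCommGroup X] [NormedSpace ℝ X] [NormedAddCommGroup Y]
  [NormedSpace ℝ Y]

/-- composition with a linear isometry -/
theorem SIso.comp_linear {f : X → Y} {g : Y → X} (h : SIso f g) (G : X ≃ₗᵢ[ℝ] Y) :
    SIso (fun x => G.symm (f x)) (fun x => g (G x)) where
  mapf := fun x hx => by
    rw [LinearIsometryEquiv.norm_map]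
    exact h.mapf x hx
  mapg := fun y hy => by
    apply h.mapg
    rwa [LinearIsometryEquiv.norm_map]
  gf := fun x hx => by
    simp only [LinearIsometryEquiv.apply_symm_apply]
    exact h.gf x hx
  fg := fun y hy => by
    have h1 : ‖G y‖ = 1 := by rwa [LinearIsometryEquiv.norm_map]
    simp only [h.fg _ h1, LinearIsometryEquiv.symm_apply_apply]
  dist := fun x x' hx hx' => by
    rw [← map_sub, LinearIsometryEquiv.norm_map]
    exact h.dist x x' hx hx'

/-- the derivative of `G⁻¹ ∘ f` -/
theorem HasD.comp_linear {f : X → Y} {p v : X} {w : Y} (G : X ≃ₗᵢ[ℝ] Y)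
    (hw : HasD f p v w) : HasD (fun x => G.symm (f x)) p v (G.symm w) := by
  unfold HasD at hw ⊢
  have h1 : Tendsto (fun y : Y => G.symm y) (𝓝 w) (𝓝 (G.symm w)) :=
    G.symm.continuous.tendsto w
  have h2 := h1.comp hw
  refine h2.congr fun t => ?_
  simp only [Function.comp_apply, map_smul, map_sub]

/-- if the derivative of `f` on the tangent cone of `p` is a linear isometry `G` with `‖G p + f p‖ = 2` then
`G p = f p` (`w_lemma` for `G⁻¹ ∘ f`) -/
theorem fix_of_isometry_deriv {f : X → Y} {g : Y → X} (h : SIso f g) {p : X} (hp : ‖p‖ = 1)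
    (G : X ≃ₗᵢ[ℝ] Y) (hG : ∀ v, nd p v = 0 → HasD f p v (G v)) (h2 : ‖G p + f p‖ = 2) :
    G p = f p := by
  have hs := h.comp_linear G
  have h3 : ‖p + G.symm (f p)‖ = 2 := by
    have : p + G.symm (f p) = G.symm (G p + f p) := by
      rw [map_add, LinearIsometryEquiv.symm_apply_apply]
    rw [this, LinearIsometryEquiv.norm_map]
    exact h2
  have hD : ∀ u : X, (∀ s : ℝ, 0 ≤ s → s ≤ 1 → ‖p + s • u‖ = 1) →
      HasD (fun x => G.symm (f x)) p u u := by
    intro u hu
    have hnd : nd p u = 0 := by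
      refine nd_of_tendsto hp (x := fun t => p + t • u) ?_ ?_
      · filter_upwards [Ioc_mem_nhdsGT (zero_lt_one (α := ℝ))] with t ht
        exact hu t ht.1.le ht.2
      · refine tendsto_const_nhds.congr' ?_
        filter_upwards [self_mem_nhdsWithin] with t ht
        have ht' : t ≠ 0 := ne_of_gt ht
        rw [add_sub_cancel_left, smul_smul, inv_mul_cancel₀ ht', one_smul]
    have h4 := (hG u hnd).comp_linear G
    rwa [LinearIsometryEquiv.symm_apply_apply] at h4
  have h5 : G.symm (f p) = p := w_lemma hs hp h3 hD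
  have h6 := congrArg G h5
  rw [LinearIsometryEquiv.apply_symm_apply] at h6
  exact h6.symm

theorem ns_main [CompleteSpace X] [CompleteSpace Y] {f : X → Y} {g : Y → X}
    (h : SIso f g) {p : X} (hp : ‖p‖ = 1) (hns : ¬ Smo p) :
    ∃ G : X ≃ₗᵢ[ℝ] Y, (∀ v, nd p v = 0 → HasD f p v (G v)) ∧ G p = f p := by
  obtain ⟨G, hG, h2⟩ := isometry_of_not_smo h hp hns
  exact ⟨G, hG, fix_of_isometry_deriv h hp G hG h2⟩

end Vale.Agent.P084G
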