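import Vale.Agent.Lib.P084G.A.NSMain

/-! Adapter: the non-smooth point theorem for maps between the sphere subtypes (interface agreed with helper41). -/

open Filter Topology Metric

namespace Vale.Agent.P084G

variable {X Y : Type*} [NormedAddCommGroup X] [NormedSpace ℝ X] [NormedAddCommGroup Y]
  [NormedSpace ℝ Y]

open Classical in
/-- every isometry of the sphere subtypes comes from an `SIso` pair -/
theorem exists_siso (f : sphere (0 : X) 1 → sphere (0 : Y) 1) (hf : Isometry f)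
    (hs : Function.Surjective f) :
    ∃ (F : X → Y) (G : Y → X), SIso F G ∧ ∀ x : sphere (0 : X) 1, F (x : X) = (f x : Y) := by
  have hmX : ∀ x : X, ‖x‖ = 1 → x ∈ sphere (0 : X) 1 := fun x hx => by simp [hx]
  have hmY : ∀ x : Y, ‖x‖ = 1 → x ∈ sphere (0 : Y) 1 := fun x hx => by simp [hx]
  have hnX : ∀ x : sphere (0 : X) 1, ‖(x : X)‖ = 1 := fun x => by simp
  have hnY : ∀ x : sphere (0 : Y) 1, ‖(x : Y)‖ = 1 := fun x => by simp
  choose g hg using hs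
  have hgf : ∀ x, g (f x) = x := fun x => hf.injective (hg (f x))
  obtain ⟨F, hF⟩ : ∃ F : X → Y, ∀ (x : X) (h : x ∈ sphere (0 : X) 1), F x = f ⟨x, h⟩ := by
    refine ⟨fun x : X => if h : x ∈ sphere (0 : X) 1 then (f ⟨x, h⟩ : Y) else 0, ?_⟩
    intro x h
    simp only [h, dite_true]
  obtain ⟨G, hG⟩ : ∃ G : Y → X, ∀ (y : Y) (h : y ∈ sphere (0 : Y) 1), G y = g ⟨y, h⟩ := by
    refine ⟨fun x : Y => if h : x ∈ sphere (0 : Y) 1 then (g ⟨x, h⟩ : X) else 0, ?_⟩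
    intro x h
    simp only [h, dite_true]
  refine ⟨F, G, ⟨?_, ?_, ?_, ?_, ?_⟩, ?_⟩
  · intro x hx
    rw [hF x (hmX x hx)]
    exact hnY _
  · intro y hy
    rw [hG y (hmY y hy)]
    exact hnX _
  · intro x hx
    have h1 := hF x (hmX x hx)
    have h2 := hG (f ⟨x, hmX x hx⟩ : Y) (f ⟨x, hmX x hx⟩).2
    rw [h1, h2]
    simp only [Subtype.coe_eta, hgf]
  · intro y hy
    have h1 := hG y (hmY y hy)
    have h2 := hF (g ⟨y, hmY y hy⟩ : X) (g ⟨y, hmY y hy⟩).2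
    rw [h1, h2]
    simp only [Subtype.coe_eta, hg]
  · intro x x' hx hx'
    rw [hF x (hmX x hx), hF x' (hmX x' hx')]
    have := hf.dist_eq ⟨x, hmX x hx⟩ ⟨x', hmX x' hx'⟩
    rw [Subtype.dist_eq, Subtype.dist_eq, dist_eq_norm, dist_eq_norm] at this
    exact this
  · intro x
    have := hF (x : X) x.2
    rw [this]

theorem not_smo_of_kink {p u : X} (hp : ‖p‖ = 1)
    (hu : ∃ δ : ℝ, 0 < δ ∧ ∀ s : ℝ, 0 < s → 2 + δ * s ≤ ‖p + s • u‖ + ‖p - s • u‖) : ¬ Smo p := by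
  obtain ⟨δ, hδ, hu⟩ := hu
  intro hs
  have h0 := hs u
  have h1 := (nd_tendsto p u).add (nd_tendsto p (-u))
  rw [h0] at h1
  have h2 : δ ≤ 0 := by
    refine ge_of_tendsto h1 ?_
    filter_upwards [self_mem_nhdsWithin] with t ht
    have ht' : 0 < t := ht
    have h3 := hu t ht'
    rw [← add_div, le_div_iff₀ ht', smul_neg, ← sub_eq_add_neg, hp]
    linarith
  linarith

/-- **NSP.** -/
theorem NSP [CompleteSpace X] [CompleteSpace Y] (f : sphere (0 : X) 1 → sphere (0 : Y) 1)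
    (hf : Isometry f) (hs : Function.Surjective f) (p : sphere (0 : X) 1) (u : X)
    (hu : ∃ δ : ℝ, 0 < δ ∧ ∀ s : ℝ, 0 < s → 2 + δ * s ≤ ‖(p : X) + s • u‖ + ‖(p : X) - s • u‖) :
    ∃ L : X ≃ₗᵢ[ℝ] Y, L (p : X) = (f p : Y) ∧
      ∀ v : X, nd (p : X) v = 0 → ∀ ε : ℝ, 0 < ε → ∃ s₀ : ℝ, 0 < s₀ ∧ ∀ s : ℝ, 0 < s → s < s₀ →
        ∀ x : sphere (0 : X) 1, (x : X) = ‖(p : X) + s • v‖⁻¹ • ((p : X) + s • v) →
          ‖(f x : Y) - L (x : X)‖ ≤ ε * s := by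
  have hp : ‖(p : X)‖ = 1 := by simp
  obtain ⟨F, G, hFG, hFf⟩ := exists_siso f hf hs
  obtain ⟨L, hL, hLp⟩ := ns_main hFG hp (not_smo_of_kink hp hu)
  refine ⟨L, by rw [hLp, hFf], ?_⟩
  intro v hv ε hε
  have h1 : Tendsto (fun t : ℝ => t⁻¹ • (F (cur (p : X) v t) - F p)) (𝓝[>] 0) (𝓝 (L v)) := hL v hv
  have h2 : Tendsto (fun t : ℝ => L (t⁻¹ • (cur (p : X) v t - p))) (𝓝[>] 0) (𝓝 (L v)) :=
    (L.continuous.tendsto _).comp (cur_tendsto hp hv)
  have h3 := h1.sub h2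
  rw [sub_self] at h3
  have h4 := (Metric.tendsto_nhds.1 h3) ε hε
  rw [eventually_nhdsWithin_iff, Metric.eventually_nhds_iff] at h4
  obtain ⟨s₀, hs₀, h5⟩ := h4
  refine ⟨s₀, hs₀, ?_⟩
  intro s hs1 hs2 x hx
  have h6 := h5 (y := s) (by rw [Real.dist_eq, sub_zero, abs_of_pos hs1]; exact hs2) hs1
  have h7 : (x : X) = cur (p : X) v s := hx
  rw [dist_zero_right, map_smul, ← smul_sub, map_sub, hLp, norm_smul, norm_inv, Real.norm_eq_abs,
    abs_of_pos hs1, ← h7, hFf, hFf] at h6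
  have h8 : (f x : Y) - (f p : Y) - (L (x : X) - (f p : Y)) = (f x : Y) - L (x : X) := by abel
  rw [h8] at h6
  rw [inv_mul_eq_div, div_lt_iff₀ hs1] at h6
  exact h6.le

end Vale.Agent.P084G
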