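import Vale.Agent.Lib.P084G.A.Defs

/-! The one-sided derivative `nd` of the norm. -/

open Filter Topology

namespace Vale.Agent.P084G

variable {X : Type*} [NormedAddCommGroup X] [NormedSpace ℝ X]

private theorem nd_lower (p v : X) {t : ℝ} (ht : 0 < t) : -‖v‖ ≤ (‖p + t • v‖ - ‖p‖) / t := by
  rw [le_div_iff₀ ht]
  have h1 : ‖p‖ ≤ ‖p + t • v‖ + ‖t • v‖ := by
    calc ‖p‖ = ‖(p + t • v) - t • v‖ := by rw [add_sub_cancel_right]
      _ ≤ _ := norm_sub_le _ _
  rw [norm_smul, Real.norm_of_nonneg ht.le] at h1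
  linarith

private theorem nd_bdd (p v : X) :
    BddBelow ((fun t : ℝ => (‖p + t • v‖ - ‖p‖) / t) '' Set.Ioi 0) := by
  refine ⟨-‖v‖, ?_⟩
  rintro _ ⟨t, ht, rfl⟩
  exact nd_lower p v ht

/-- the difference quotient is nondecreasing on `t > 0` (convexity of the norm) and bounded below by `-‖v‖` -/
theorem nd_le (p v : X) {t : ℝ} (ht : 0 < t) : nd p v ≤ (‖p + t • v‖ - ‖p‖) / t :=
  csInf_le (nd_bdd p v) ⟨t, ht, rfl⟩

private theorem nd_mono (p v : X) :
    MonotoneOn (fun t : ℝ => (‖p + t • v‖ - ‖p‖) / t) (Set.Ioi 0) := by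
  intro s hs t ht hst
  simp only [Set.mem_Ioi] at hs ht
  change (‖p + s • v‖ - ‖p‖) / s ≤ (‖p + t • v‖ - ‖p‖) / t
  rw [div_le_div_iff₀ hs ht]
  have h1 : t • (p + s • v) = (t - s) • p + s • (p + t • v) := by
    rw [smul_add, smul_add, smul_smul, smul_smul, sub_smul, mul_comm s t]
    abel
  have h2 : t * ‖p + s • v‖ ≤ (t - s) * ‖p‖ + s * ‖p + t • v‖ := by
    calc t * ‖p + s • v‖ = ‖t • (p + s • v)‖ := by
          rw [norm_smul, Real.norm_of_nonneg ht.le]
      _ = ‖(t - s) • p + s • (p + t • v)‖ := by rw [h1]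
      _ ≤ ‖(t - s) • p‖ + ‖s • (p + t • v)‖ := norm_add_le _ _
      _ = (t - s) * ‖p‖ + s * ‖p + t • v‖ := by
          rw [norm_smul, norm_smul, Real.norm_of_nonneg hs.le,
            Real.norm_of_nonneg (sub_nonneg.2 hst)]
  nlinarith

theorem nd_tendsto (p v : X) :
    Tendsto (fun t : ℝ => (‖p + t • v‖ - ‖p‖) / t) (𝓝[>] 0) (𝓝 (nd p v)) :=
  (nd_mono p v).tendsto_nhdsGT (nd_bdd p v)

private theorem tendsto_mul_pos {c : ℝ} (hc : 0 < c) :
    Tendsto (fun t : ℝ => c * t) (𝓝[>] 0) (𝓝[>] 0) := by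
  refine tendsto_nhdsWithin_iff.2 ⟨?_, ?_⟩
  · have h1 : Tendsto (fun t : ℝ => c * t) (𝓝 0) (𝓝 (c * 0)) :=
      (continuous_const.mul continuous_id).tendsto 0
    rw [mul_zero] at h1
    exact h1.mono_left nhdsWithin_le_nhds
  · filter_upwards [self_mem_nhdsWithin] with t ht
    exact mul_pos hc ht

private theorem nd_zero (p : X) : nd p 0 = 0 := by
  refine tendsto_nhds_unique (nd_tendsto p 0) ?_
  simp only [smul_zero, add_zero, sub_self, zero_div]
  exact tendsto_const_nhds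

theorem nd_smul (p v : X) {c : ℝ} (hc : 0 ≤ c) : nd p (c • v) = c * nd p v := by
  rcases hc.eq_or_lt with rfl | hc
  · rw [zero_smul, zero_mul, nd_zero]
  · refine tendsto_nhds_unique (nd_tendsto p (c • v)) ?_
    have h1 := ((nd_tendsto p v).comp (tendsto_mul_pos hc)).const_mul c
    refine h1.congr' ?_
    filter_upwards [self_mem_nhdsWithin] with t ht
    have ht0 : (0 : ℝ) < t := ht
    simp only [Function.comp_apply]
    rw [smul_smul, mul_comm t c]
    field_simp

theorem nd_add_le (p v w : X) : nd p (v + w) ≤ nd p v + nd p w := by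
  have h2 : (0 : ℝ) < 2 := two_pos
  have h1 := ((nd_tendsto p v).comp (tendsto_mul_pos h2)).add
    ((nd_tendsto p w).comp (tendsto_mul_pos h2))
  refine le_of_tendsto_of_tendsto (nd_tendsto p (v + w)) h1 ?_
  filter_upwards [self_mem_nhdsWithin] with t ht
  have ht0 : (0 : ℝ) < t := ht
  simp only [Function.comp_apply]
  rw [← add_div, div_le_div_iff₀ ht0 (by positivity)]
  have h3 : (2 : ℝ) • (p + t • (v + w)) = (p + (2 * t) • v) + (p + (2 * t) • w) := by
    rw [smul_add, smul_add, smul_add, smul_smul, smul_smul, two_smul ℝ p]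
    abel
  have h4 : 2 * ‖p + t • (v + w)‖ ≤ ‖p + (2 * t) • v‖ + ‖p + (2 * t) • w‖ := by
    calc 2 * ‖p + t • (v + w)‖ = ‖(2 : ℝ) • (p + t • (v + w))‖ := by
          rw [norm_smul, Real.norm_of_nonneg h2.le]
      _ = ‖(p + (2 * t) • v) + (p + (2 * t) • w)‖ := by rw [h3]
      _ ≤ _ := norm_add_le _ _
  nlinarith

theorem nd_le_norm (p v : X) : nd p v ≤ ‖v‖ := by
  have h1 := nd_le p v one_pos
  rw [one_smul, div_one] at h1
  have h2 := norm_add_le p v
  linarith

theorem abs_nd_sub_le (p v w : X) : |nd p v - nd p w| ≤ ‖v - w‖ := by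
  have h1 : nd p v ≤ nd p w + nd p (v - w) := by
    have := nd_add_le p w (v - w)
    rwa [add_sub_cancel] at this
  have h2 : nd p w ≤ nd p v + nd p (w - v) := by
    have := nd_add_le p v (w - v)
    rwa [add_sub_cancel] at this
  have h3 := nd_le_norm p (v - w)
  have h4 := nd_le_norm p (w - v)
  rw [norm_sub_rev] at h4
  rw [abs_le]
  constructor <;> linarith

theorem nd_neg_add_nonneg (p v : X) : 0 ≤ nd p v + nd p (-v) := by
  have h1 := nd_add_le p v (-v)
  rwa [add_neg_cancel, nd_zero] at h1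

private theorem nd_self' {p : X} (hp : ‖p‖ = 1) (a : ℝ) : nd p (a • p) = a := by
  refine tendsto_nhds_unique (nd_tendsto p (a • p)) ?_
  refine Tendsto.congr' ?_ tendsto_const_nhds
  have h1 : Tendsto (fun t : ℝ => 1 + t * a) (𝓝[>] 0) (𝓝 (1 + 0 * a)) :=
    ((continuous_const.add (continuous_id.mul continuous_const)).tendsto 0).mono_left
      nhdsWithin_le_nhds
  rw [zero_mul, add_zero] at h1
  have h2 : ∀ᶠ t : ℝ in 𝓝[>] 0, 0 < 1 + t * a := h1.eventually (lt_mem_nhds one_pos)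
  filter_upwards [h2, self_mem_nhdsWithin] with t ht ht'
  have ht0 : (0 : ℝ) < t := ht'
  have h3 : p + t • (a • p) = (1 + t * a) • p := by
    rw [add_smul, one_smul, smul_smul]
  rw [h3, norm_smul, Real.norm_of_nonneg ht.le, hp, mul_one, add_sub_cancel_left,
    mul_div_cancel_left₀ _ ht0.ne']

/-- shift along `p` (here `‖p‖ = 1`) : for `t` small, `p + t (v + a p) = (1 + t a)(p + (t/(1+ta)) v)` -/
theorem nd_add_smul_self {p : X} (hp : ‖p‖ = 1) (v : X) (a : ℝ) :
    nd p (v + a • p) = nd p v + a := by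
  have h1 := nd_add_le p v (a • p)
  have h2 := nd_add_le p (v + a • p) ((-a) • p)
  have h3 : (v + a • p) + (-a) • p = v := by
    rw [neg_smul, add_neg_cancel_right]
  rw [h3] at h2
  rw [nd_self' hp] at h1 h2
  linarith

theorem nd_self {p : X} (hp : ‖p‖ = 1) (a : ℝ) : nd p (a • p) = a := nd_self' hp a

theorem continuous_nd (p : X) : Continuous (nd p) := by
  have h1 : LipschitzWith 1 (nd p) := by
    refine LipschitzWith.of_dist_le_mul ?_
    intro v w
    rw [NNReal.coe_one, one_mul, Real.dist_eq, dist_eq_norm]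
    exact abs_nd_sub_le p v w
  exact h1.continuous

/-- norming functionals of `p` are below `nd p` -/
theorem le_nd {p v : X} {ψ : X →L[ℝ] ℝ} (h1 : ‖ψ‖ ≤ 1) (h2 : ψ p = ‖p‖) : ψ v ≤ nd p v := by
  refine ge_of_tendsto (nd_tendsto p v) ?_
  filter_upwards [self_mem_nhdsWithin] with t ht
  have ht0 : (0 : ℝ) < t := ht
  rw [le_div_iff₀ ht0]
  have h3 : ψ (p + t • v) ≤ ‖p + t • v‖ := by
    have h4 : ‖ψ (p + t • v)‖ ≤ ‖ψ‖ * ‖p + t • v‖ := ψ.le_opNorm _
    have h5 : ‖ψ‖ * ‖p + t • v‖ ≤ 1 * ‖p + t • v‖ :=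
      mul_le_mul_of_nonneg_right h1 (norm_nonneg _)
    have h6 := Real.le_norm_self (ψ (p + t • v))
    linarith
  rw [map_add, map_smul, smul_eq_mul, h2] at h3
  linarith

end Vale.Agent.P084G
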