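import Vale.Agent.Lib.P084G.A.NSInner
import Vale.Agent.Lib.P084G.A.NSImage

/-! The derivative at a non-smooth point is a linear isometry onto (INF.md section 8). -/

open Filter Topology

namespace Vale.Agent.P084G

variable {X Y : Type*} [NormedAddCommGroup X] [NormedSpace ℝ X] [NormedAddCommGroup Y]
  [NormedSpace ℝ Y]

/-- the two derivatives are inverse to each other on a spanning cone -/
theorem NonSmooth_inv {f : X → Y} {g : Y → X} (h : SIso f g) {p : X} (hp : ‖p‖ = 1)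
    (hspan : Submodule.span ℝ {v : X | nd p v = 0} = ⊤)
    (G : X →ₗ[ℝ] Y) (hG : ∀ v, nd p v = 0 → HasD f p v (G v))
    (G' : Y →ₗ[ℝ] X) (hG' : ∀ w, nd (f p) w = 0 → HasD g (f p) w (G' w)) (u : X) :
    G' (G u) = u := by
  have key : (G'.comp G) = LinearMap.id := by
    refine LinearMap.ext_on hspan ?_
    intro v hv
    have hv' : nd p v = 0 := hv
    have h1 : HasD g (f p) (G v) v := HasD.inv h hp hv' (hG v hv')
    have h2 : nd (f p) (G v) = 0 := HasD.nd_eq_zero h hp hv' (hG v hv')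
    have h3 : HasD g (f p) (G v) (G' (G v)) := hG' _ h2
    exact tendsto_nhds_unique h3 h1
  exact LinearMap.congr_fun key u

/-- (vi) the image of `p` under the derivative -/
theorem NonSmooth_two {f : X → Y} {g : Y → X} (h : SIso f g) {p : X} (hp : ‖p‖ = 1)
    (hspan : Submodule.span ℝ {v : X | nd p v = 0} = ⊤)
    (G : X →ₗ[ℝ] Y) (hG : ∀ v, nd p v = 0 → HasD f p v (G v)) :
    2 ≤ ‖G p + f p‖ := by
  obtain ⟨l, c, v, hv, hpe⟩ := mem_span_fin {v : X | nd p v = 0} (u := p)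
    (by rw [hspan]; trivial)
  have hA : 0 ≤ ∑ i, |c i| := Finset.sum_nonneg fun i _ => abs_nonneg _
  refine le_of_forall_pos_sub_le ?_
  intro ε hε
  have hη : 0 < ε / (2 + ∑ i, |c i|) := by positivity
  obtain ⟨y', hy', hyy, hψ⟩ := rel_lim h (y := -p) hp (by rw [norm_neg, hp])
    (by simp) v (fun i => G (v i)) hv (fun i => hG _ (hv i)) hη
  set η := ε / (2 + ∑ i, |c i|) with hηdef
  obtain ⟨ψ, hψ1⟩ := exists_nrm (p - y')
  obtain ⟨ψ', hψ2⟩ := exists_nrm (f p - f y')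
  have hi := hψ ψ ψ' hψ1 hψ2
  have hfy : ‖f y'‖ = 1 := h.mapf y' hy'
  have hdist : ‖f p - f y'‖ = ‖p - y'‖ := h.dist p y' hp hy'
  have hlow : 2 - η ≤ ‖p - y'‖ := by
    have h1 : ‖p + p‖ = 2 := by
      rw [← two_smul ℝ p, norm_smul, hp]; norm_num
    have h2 : p + p = (p - y') + (y' - -p) := by abel
    have h3 : ‖p + p‖ ≤ ‖p - y'‖ + ‖y' - -p‖ := by
      rw [h2]; exact norm_add_le _ _
    linarith
  have e1 : 1 - η ≤ ψ p := by
    have h1 : ψ (p - y') = ‖p - y'‖ := hψ1.2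
    have h2 : |ψ y'| ≤ ‖y'‖ := hψ1.abs_le y'
    rw [map_sub] at h1
    have h3 := neg_le_of_abs_le h2
    rw [hy'] at h3
    linarith
  have e2 : 1 - η ≤ ψ' (f p) := by
    have h1 : ψ' (f p - f y') = ‖f p - f y'‖ := hψ2.2
    have h2 : |ψ' (f y')| ≤ ‖f y'‖ := hψ2.abs_le (f y')
    rw [map_sub, hdist] at h1
    have h3 := neg_le_of_abs_le h2
    rw [hfy] at h3
    linarith
  have e3 : ψ p - η * ∑ i, |c i| ≤ ψ' (G p) := by
    have h1 : ψ p = ∑ i, c i * ψ (v i) := by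
      conv_lhs => rw [hpe]
      rw [map_sum]
      simp
    have h2 : ψ' (G p) = ∑ i, c i * ψ' (G (v i)) := by
      conv_lhs => rw [hpe]
      rw [map_sum, map_sum]
      simp
    have h3 : ψ p - ψ' (G p) ≤ ∑ i, η * |c i| := by
      rw [h1, h2, ← Finset.sum_sub_distrib]
      refine Finset.sum_le_sum fun i _ => ?_
      have h4 : c i * ψ (v i) - c i * ψ' (G (v i)) = -(c i * (ψ' (G (v i)) - ψ (v i))) := by ring
      rw [h4]
      refine (neg_le_abs _).trans ?_
      rw [abs_mul, mul_comm]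
      exact mul_le_mul_of_nonneg_right (hi i) (abs_nonneg _)
    rw [← Finset.mul_sum] at h3
    linarith
  have e4 : ψ' (G p + f p) ≤ ‖G p + f p‖ := hψ2.le _
  rw [map_add] at e4
  have e5 : η * (2 + ∑ i, |c i|) = ε := by
    rw [hηdef]
    field_simp
  have e6 : η * (2 + ∑ i, |c i|) = 2 * η + η * ∑ i, |c i| := by ring
  linarith

/-- **Section 8.** -/
theorem isometry_of_not_smo [CompleteSpace X] [CompleteSpace Y] {f : X → Y} {g : Y → X}
    (h : SIso f g) {p : X} (hp : ‖p‖ = 1) (hns : ¬ Smo p) :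
    ∃ G : X ≃ₗᵢ[ℝ] Y, (∀ v, nd p v = 0 → HasD f p v (G v)) ∧ ‖G p + f p‖ = 2 := by
  have hq : ‖f p‖ = 1 := h.mapf p hp
  have hnsq : ¬ Smo (f p) := not_smo_image h hp hns
  have hsp : Submodule.span ℝ {v : X | nd p v = 0} = ⊤ := span_top_of_not_smo hp hns
  have hsq : Submodule.span ℝ {v : Y | nd (f p) v = 0} = ⊤ := span_top_of_not_smo hq hnsq
  obtain ⟨G, hG, hGb⟩ := exists_deriv h hp
  obtain ⟨G', hG', hGb'⟩ := exists_deriv h.symm hq
  have hgf : g (f p) = p := h.gf p hp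
  have hinv : ∀ u, G' (G u) = u := NonSmooth_inv h hp hsp G hG G' hG'
  have hinv' : ∀ w, G (G' w) = w := by
    refine NonSmooth_inv h.symm hq hsq G' hG' G ?_
    intro v hv
    rw [hgf] at hv ⊢
    exact hG v hv
  have hc : Continuous G :=
    AddMonoidHomClass.continuous_of_bound G 16 fun u => hGb u (by rw [hsp]; trivial)
  have hinner : ∀ u, nd p u < 0 → ‖G u‖ = ‖u‖ := by
    intro u hu
    have h1 : ‖u‖ ≤ ‖G u‖ := norm_le_of_inner h hp G hG (by rw [hsp]; trivial) hu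
    have h2 : nd (f p) (G u) < 0 := inner_image h hp hns G hG G' hG' hinv hinv' hc hu
    have h3 : ‖G u‖ ≤ ‖G' (G u)‖ :=
      norm_le_of_inner h.symm hq G' hG' (by rw [hsq]; trivial) h2
    rw [hinv] at h3
    exact le_antisymm h3 h1
  have hnorm : ∀ u, ‖G u‖ = ‖u‖ := by
    intro u
    rcases lt_or_ge (nd p u) 0 with hu | hu
    · exact hinner u hu
    · rcases lt_or_ge (nd p (-u)) 0 with hu' | hu'
      · have h1 := hinner (-u) hu'
        rwa [map_neg, norm_neg, norm_neg] at h1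
      · obtain ⟨v1, v2, h1, h2, h3⟩ := exists_diff hp hu hu'
        rw [h3, map_sub]
        exact HasD.dist h hp h1 (hG _ h1) h2 (hG _ h2)
  let E : X ≃ₗ[ℝ] Y := LinearEquiv.ofLinearMap G G' (LinearMap.ext hinv') (LinearMap.ext hinv)
  refine ⟨⟨E, hnorm⟩, hG, ?_⟩
  refine le_antisymm ?_ (NonSmooth_two h hp hsp G hG)
  refine (norm_add_le _ _).trans ?_
  have h1 : ‖G p‖ = 1 := by rw [hnorm, hp]
  have h2 : ‖G p‖ + ‖f p‖ ≤ 2 := by rw [h1, hq]; norm_num
  exact h2

end Vale.Agent.P084G
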