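import Vale.Agent.Lib.P084G.A.Cur
import Vale.Agent.Lib.P084G.A.DBasic

/-! Auxiliary lemmas for (W). -/

open Filter Topology

namespace Vale.Agent.P084G

variable {X : Type*} [NormedAddCommGroup X] [NormedSpace ℝ X]

/-- a segment of the sphere starting at `p` in the direction `u` has `nd p u = 0` and `cur p u s = p + s u` there -/
theorem hasD_segment {g : X → X} {p u : X} (hp : ‖p‖ = 1)
    (hseg : ∀ s : ℝ, 0 ≤ s → s ≤ 1 → ‖p + s • u‖ = 1) (hD : HasD g p u u) :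
    nd p u = 0 ∧ Tendsto (fun s : ℝ => s⁻¹ • (g (p + s • u) - g p)) (𝓝[>] 0) (𝓝 u) := by
  have hev : ∀ᶠ s : ℝ in 𝓝[>] 0, 0 < s ∧ s ≤ 1 := by
    have h1 : Set.Ioc (0 : ℝ) 1 ∈ 𝓝[>] (0 : ℝ) := Ioc_mem_nhdsGT one_pos
    filter_upwards [h1] with s hs
    exact ⟨hs.1, hs.2⟩
  constructor
  · have h1 := nd_tendsto p u
    have h2 : Tendsto (fun t : ℝ => (‖p + t • u‖ - ‖p‖) / t) (𝓝[>] 0) (𝓝 0) := by
      refine Tendsto.congr' ?_ tendsto_const_nhds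
      filter_upwards [hev] with s hs
      rw [hseg s hs.1.le hs.2, hp, sub_self, zero_div]
    exact tendsto_nhds_unique h1 h2
  · unfold HasD at hD
    refine Tendsto.congr' ?_ hD
    filter_upwards [hev] with s hs
    have h3 : cur p u s = p + s • u := by
      unfold cur
      rw [hseg s hs.1.le hs.2, inv_one, one_smul]
    rw [h3]

/-- convexity step: if `c : ℝ → X`, `c 0 = x1`, `c(s) = x1 + s u + o(s)`, `s ↦ ‖c s - a‖` is convex on `[0,1]` and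
`‖x1 - a‖ = χ (x1 - a)` with `‖χ‖ ≤ 1`, then `‖c 1 - a‖ ≥ ‖x1 - a‖ + χ u`. -/
theorem convex_slope {c : ℝ → X} {x1 u a : X} (h0 : c 0 = x1)
    (hc : Tendsto (fun s : ℝ => s⁻¹ • (c s - x1)) (𝓝[>] 0) (𝓝 u))
    (hconv : ConvexOn ℝ (Set.Icc (0 : ℝ) 1) (fun s => ‖c s - a‖))
    {χ : X →L[ℝ] ℝ} (hχ : Nrm χ (x1 - a)) : ‖x1 - a‖ + χ u ≤ ‖c 1 - a‖ := by
  have h1 : Tendsto (fun s : ℝ => χ (s⁻¹ • (c s - x1))) (𝓝[>] 0) (𝓝 (χ u)) :=
    (χ.continuous.tendsto u).comp hc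
  have hev : ∀ᶠ s : ℝ in 𝓝[>] 0, 0 < s ∧ s ≤ 1 := by
    have h1 : Set.Ioc (0 : ℝ) 1 ∈ 𝓝[>] (0 : ℝ) := Ioc_mem_nhdsGT one_pos
    filter_upwards [h1] with s hs
    exact ⟨hs.1, hs.2⟩
  have h2 : χ u ≤ ‖c 1 - a‖ - ‖x1 - a‖ := by
    refine le_of_tendsto h1 ?_
    filter_upwards [hev] with s hs
    obtain ⟨hs0, hs1⟩ := hs
    have e0 : (0 : ℝ) ∈ Set.Icc (0 : ℝ) 1 := ⟨le_refl _, zero_le_one⟩
    have e1 : (1 : ℝ) ∈ Set.Icc (0 : ℝ) 1 := ⟨zero_le_one, le_refl _⟩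
    have es : 0 ≤ 1 - s := by linarith
    have h3 := hconv.2 e0 e1 es hs0.le (by ring)
    simp only [smul_eq_mul, mul_zero, mul_one, zero_add, h0] at h3
    have h4 : χ (c s - a) ≤ ‖c s - a‖ := hχ.le _
    have h5 : χ (c s - a) = ‖x1 - a‖ + χ (c s - x1) := by
      rw [← hχ.2, ← map_add]
      congr 1
      abel
    rw [map_smul, smul_eq_mul, inv_mul_le_iff₀ hs0]
    nlinarith
  linarith

end Vale.Agent.P084G
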